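import Vale.Agent.P141.H795.Grid

/-!
# P141, line (A): facts on the kernels `KK`

`KK_zero`: the kernel of scale `0`; `abs_KK`: size; `KK_supp`: support; `KK_sum`: mass one;
`In_zero`: the term of scale `0` of the Abel line as three tied sums.
-/

namespace Vale.Agent.P141.H795

open Finset
open Vale.Agent.P141.PL
open Vale.Agent.P141.H352 (In sum_iv)

noncomputable section

/-- the profile of the mask: values on the three cells -/
def V3 (q : ℤ) : ℝ := if q = -1 then -1 / 6 else if q = -2 then 8 / 6 else if q = -3 then -1 / 6 else 0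

theorem coeff_pm (k : ℕ) (z : ℤ) :
    (bb k * mk k).coeff z = ((2 : ℝ) ^ k)⁻¹ * V3 (ix k z) := by
  have h0 : bb k * mk k = (6 : ℝ)⁻¹ • (-(yi k ^ 1 * bb k) + (8 : ℝ) • (yi k ^ 2 * bb k) -
      yi k ^ 3 * bb k) := by
    have hc : ∀ (r : ℝ) (P : GA), r • P = algebraMap ℝ GA r * P := fun r P => Algebra.smul_def r P
    unfold mk
    simp only [hc]
    have e8 : algebraMap ℝ GA (8 : ℝ) = 8 := by rw [map_ofNat]
    rw [e8]
    ring
  rw [h0]
  simp only [AddMonoidAlgebra.coeff_smul_apply, AddMonoidAlgebra.coeff_sub,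
    AddMonoidAlgebra.coeff_add, AddMonoidAlgebra.coeff_neg, Finsupp.add_apply, Finsupp.sub_apply,
    Finsupp.neg_apply, coeff_bb_yi, smul_eq_mul]
  unfold V3
  generalize ix k z = q
  push_cast
  by_cases h3 : q = -3
  · subst h3; norm_num; ring
  by_cases h2 : q = -2
  · subst h2; norm_num; ring
  by_cases h1 : q = -1
  · subst h1; norm_num; ring
  simp only [h3, h2, h1, if_false]
  ring

/-- **The kernel as an average of the mask profile.** -/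
theorem KK_eq (k : ℕ) (z : ℤ) : KK k z = ((2 : ℝ) ^ k)⁻¹ * ∑ v1 ∈ range (2 ^ k),
    ((2 : ℝ) ^ k)⁻¹ * ∑ v2 ∈ range (2 ^ k), ((2 : ℝ) ^ k)⁻¹ * ∑ v3 ∈ range (2 ^ k),
      ((2 : ℝ) ^ k)⁻¹ * V3 (ix k (z - v1 - v2 - v3)) := by
  have h0 : kk k = bb k * (bb k * (bb k * (bb k * mk k))) := by unfold kk; ring
  have key : ∀ u : ℤ, (bb k * mk k).coeff u = ((2 : ℝ) ^ k)⁻¹ * V3 (ix k u) := coeff_pm k
  unfold KK
  rw [h0]
  generalize bb k * mk k = P at key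
  simp only [coeff_bb_mul, key]

theorem abs_V3 (q : ℤ) : |V3 q| ≤ 4 / 3 := by
  unfold V3
  split_ifs <;> norm_num [abs_le]

theorem V3_ne {q : ℤ} (h : V3 q ≠ 0) : -3 ≤ q ∧ q ≤ -1 := by
  unfold V3 at h
  by_contra h1
  apply h
  rw [if_neg (by omega), if_neg (by omega), if_neg (by omega)]

/-- an average is at most a bound of the terms -/
theorem avg_le {k : ℕ} {f : ℕ → ℝ} {C : ℝ} (h : ∀ v ∈ range (2 ^ k), |f v| ≤ C) :
    |((2 : ℝ) ^ k)⁻¹ * ∑ v ∈ range (2 ^ k), f v| ≤ C := by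
  have h8 : (0 : ℝ) < (2 : ℝ) ^ k := by positivity
  rw [abs_mul, abs_of_nonneg (by positivity : (0 : ℝ) ≤ ((2 : ℝ) ^ k)⁻¹)]
  have h1 : |∑ v ∈ range (2 ^ k), f v| ≤ (2 : ℝ) ^ k * C := by
    refine (abs_sum_le_sum_abs _ _).trans ((sum_le_sum h).trans ?_)
    rw [sum_const, card_range, nsmul_eq_mul]
    push_cast
    exact le_rfl
  calc ((2 : ℝ) ^ k)⁻¹ * |∑ v ∈ range (2 ^ k), f v| ≤ ((2 : ℝ) ^ k)⁻¹ * ((2 : ℝ) ^ k * C) :=
        mul_le_mul_of_nonneg_left h1 (by positivity)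
    _ = C := by field_simp

/-- **Size of the kernel.** -/
theorem abs_KK (k : ℕ) (z : ℤ) : |KK k z| ≤ 4 / 3 * ((2 : ℝ) ^ k)⁻¹ := by
  rw [KK_eq]
  refine avg_le fun v1 _ => avg_le fun v2 _ => avg_le fun v3 _ => ?_
  rw [abs_mul, abs_of_nonneg (by positivity : (0 : ℝ) ≤ ((2 : ℝ) ^ k)⁻¹), mul_comm]
  exact mul_le_mul_of_nonneg_right (abs_V3 _) (by positivity)

/-- **Support of the kernel.** -/
theorem KK_supp {k : ℕ} {z : ℤ} (h : KK k z ≠ 0) : -3 * 2 ^ k ≤ z ∧ z ≤ 3 * 2 ^ k - 4 + 1 := by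
  rw [KK_eq] at h
  obtain ⟨v1, h1, g1⟩ := exists_ne_zero_of_sum_ne_zero (right_ne_zero_of_mul h)
  obtain ⟨v2, h2, g2⟩ := exists_ne_zero_of_sum_ne_zero (right_ne_zero_of_mul g1)
  obtain ⟨v3, h3, g3⟩ := exists_ne_zero_of_sum_ne_zero (right_ne_zero_of_mul g2)
  have g4 := V3_ne (right_ne_zero_of_mul g3)
  rw [mem_range] at h1 h2 h3
  have w1 : (v1 : ℤ) + 1 ≤ 2 ^ k := by exact_mod_cast h1
  have w2 : (v2 : ℤ) + 1 ≤ 2 ^ k := by exact_mod_cast h2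
  have w3 : (v3 : ℤ) + 1 ≤ 2 ^ k := by exact_mod_cast h3
  have hp : (0 : ℤ) < 2 ^ k := by positivity
  have hm := self_mem_iv k (z - v1 - v2 - v3)
  unfold iv at hm
  rw [mem_Ico] at hm
  have n1 := Int.natCast_nonneg v1
  have n2 := Int.natCast_nonneg v2
  have n3 := Int.natCast_nonneg v3
  have m1 : (2 : ℤ) ^ k * (-3) ≤ 2 ^ k * ix k (z - v1 - v2 - v3) :=
    mul_le_mul_of_nonneg_left g4.1 hp.le
  have m2 : (2 : ℤ) ^ k * ix k (z - v1 - v2 - v3) ≤ 2 ^ k * (-1) :=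
    mul_le_mul_of_nonneg_left g4.2 hp.le
  constructor
  · linarith
  · linarith

/-- sum of the mask profile over a window containing its support -/
theorem sum_V3 (k : ℕ) (a b : ℤ) (ha : a ≤ -3 * 2 ^ k) (hb : 0 ≤ b) :
    ∑ z ∈ Ico a b, ((2 : ℝ) ^ k)⁻¹ * V3 (ix k z) = 1 := by
  classical
  have hp : (0 : ℤ) < 2 ^ k := by positivity
  have h1 : ∀ z : ℤ, V3 (ix k z) = (if z ∈ iv k (-1) then (-1 / 6 : ℝ) else 0) +
      ((if z ∈ iv k (-2) then (8 / 6 : ℝ) else 0) + if z ∈ iv k (-3) then (-1 / 6 : ℝ) else 0) := by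
    intro z
    simp only [mem_iv]
    unfold V3
    by_cases h3 : ix k z = -3
    · rw [h3]; norm_num
    by_cases h2 : ix k z = -2
    · rw [h2]; norm_num
    by_cases h1 : ix k z = -1
    · rw [h1]; norm_num
    simp only [h3, h2, h1, if_false]
    norm_num
  rw [← mul_sum]
  simp only [h1, sum_add_distrib]
  rw [← sum_filter, ← sum_filter, ← sum_filter, sum_const, sum_const, sum_const]
  have h2 : ∀ m : ℤ, -3 ≤ m → m ≤ -1 → (Ico a b).filter (fun z => z ∈ iv k m) = iv k m := by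
    intro m hm hm'
    ext z
    rw [mem_filter]
    refine ⟨fun h => h.2, fun h => ⟨?_, h⟩⟩
    unfold iv at h
    rw [mem_Ico] at h ⊢
    have m1 : (2 : ℤ) ^ k * (-3) ≤ 2 ^ k * m := mul_le_mul_of_nonneg_left hm hp.le
    have m2 : (2 : ℤ) ^ k * m ≤ 2 ^ k * (-1) := mul_le_mul_of_nonneg_left hm' hp.le
    constructor <;> linarith [h.1, h.2]
  rw [h2 _ (by norm_num) (by norm_num), h2 _ (by norm_num) (by norm_num),
    h2 _ (by norm_num) (by norm_num), card_iv, card_iv, card_iv]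
  simp only [nsmul_eq_mul]
  push_cast
  field_simp
  norm_num

/-- **Mass one.** -/
theorem KK_sum (k : ℕ) (a b : ℤ) (ha : a ≤ -3 * 2 ^ k) (hb : 3 * 2 ^ k ≤ b) :
    ∑ z ∈ Ico a b, KK k z = 1 := by
  have hp : (0 : ℤ) < 2 ^ k := by positivity
  simp only [KK_eq]
  have av : ∀ (S : ℤ → ℕ → ℝ), (∀ v ∈ range (2 ^ k), ∑ z ∈ Ico a b, S z v = 1) →
      ∑ z ∈ Ico a b, ((2 : ℝ) ^ k)⁻¹ * ∑ v ∈ range (2 ^ k), S z v = 1 := by
    intro S hS
    rw [← mul_sum, sum_comm, sum_congr rfl hS, sum_const, card_range, nsmul_eq_mul, mul_one]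
    push_cast
    exact inv_mul_cancel₀ (by positivity)
  refine av _ fun v1 h1 => av _ fun v2 h2 => av _ fun v3 h3 => ?_
  rw [mem_range] at h1 h2 h3
  have w1 : (v1 : ℤ) + 1 ≤ 2 ^ k := by exact_mod_cast h1
  have w2 : (v2 : ℤ) + 1 ≤ 2 ^ k := by exact_mod_cast h2
  have w3 : (v3 : ℤ) + 1 ≤ 2 ^ k := by exact_mod_cast h3
  have n1 := Int.natCast_nonneg v1
  have n2 := Int.natCast_nonneg v2
  have n3 := Int.natCast_nonneg v3
  have h4 := sum_V3 k (a - v1 - v2 - v3) (b - v1 - v2 - v3) (by linarith) (by linarith)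
  rw [← h4]
  refine sum_nbij' (fun z => z - v1 - v2 - v3) (fun z => z + v1 + v2 + v3) ?_ ?_ ?_ ?_ ?_
  · intro z hz
    rw [mem_Ico] at hz ⊢
    constructor <;> linarith [hz.1, hz.2]
  · intro z hz
    rw [mem_Ico] at hz ⊢
    constructor <;> linarith [hz.1, hz.2]
  · intro z _
    ring
  · intro z _
    ring
  · intro z _
    rfl

/-- **Scale zero.** -/
theorem KK_zero (z : ℤ) : KK 0 z = V3 z := by
  rw [KK_eq]
  simp [ix_zero]

/-- **The term of scale `0` of the Abel line**: three tied sums. -/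
theorem In_zero (N : ℕ) (M : Pt) (c : ℤ) (F : Pt → ℝ) :
    In N M (kp c 0) F = ∑ i ∈ Icc (-3 : ℤ) (-1), V3 i * ∑ x ∈ cb N M with
      x.1 + x.2.1 + x.2.2 = c - i, F x := by
  classical
  unfold In kp
  simp only [KK_zero, sum_filter, mul_sum]
  rw [sum_comm]
  refine sum_congr rfl fun x _ => ?_
  have h1 : ∀ i ∈ Icc (-3 : ℤ) (-1), V3 i * (if x.1 + x.2.1 + x.2.2 = c - i then F x else 0) =
      if i = c - x.1 - x.2.1 - x.2.2 then V3 i * F x else 0 := by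
    intro i _
    by_cases h : x.1 + x.2.1 + x.2.2 = c - i
    · rw [if_pos h, if_pos (by linarith)]
    · rw [if_neg h, if_neg (by intro h'; apply h; linarith), mul_zero]
  rw [sum_congr rfl h1, sum_ite_eq']
  by_cases h : c - x.1 - x.2.1 - x.2.2 ∈ Icc (-3 : ℤ) (-1)
  · rw [if_pos h]
  · rw [if_neg h]
    have : V3 (c - x.1 - x.2.1 - x.2.2) = 0 := by
      by_contra h2
      exact h (mem_Icc.2 (V3_ne h2))
    rw [this, zero_mul]

/-- **The kernel is Lipschitz.** -/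
theorem KK_lip (k : ℕ) (z : ℤ) :
    |KK k (z + 1) - KK k z| ≤ 8 / 3 * (((2 : ℝ) ^ k)⁻¹ * ((2 : ℝ) ^ k)⁻¹) := by
  set f : ℤ → ℝ := fun u => ((2 : ℝ) ^ k)⁻¹ * ∑ v2 ∈ range (2 ^ k),
    ((2 : ℝ) ^ k)⁻¹ * ∑ v3 ∈ range (2 ^ k), ((2 : ℝ) ^ k)⁻¹ * V3 (ix k (u - v2 - v3)) with hf
  have hK : ∀ u, KK k u = ((2 : ℝ) ^ k)⁻¹ * ∑ v ∈ range (2 ^ k), f (u - v) := fun u => KK_eq k u
  have hb : ∀ u, |f u| ≤ 4 / 3 * ((2 : ℝ) ^ k)⁻¹ := by
    intro u
    refine avg_le fun v2 _ => avg_le fun v3 _ => ?_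
    rw [abs_mul, abs_of_nonneg (by positivity : (0 : ℝ) ≤ ((2 : ℝ) ^ k)⁻¹), mul_comm]
    exact mul_le_mul_of_nonneg_right (abs_V3 _) (by positivity)
  have ht : ∀ n : ℕ, ∑ v ∈ range n, f (z + 1 - v) - ∑ v ∈ range n, f (z - v) =
      f (z + 1) - f (z + 1 - n) := by
    intro n
    induction n with
    | zero => simp
    | succ n ih =>
      rw [sum_range_succ, sum_range_succ]
      have e1 : z + 1 - ((n + 1 : ℕ) : ℤ) = z - n := by push_cast; ring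
      rw [e1]
      linarith
  rw [hK, hK, ← mul_sub, ht, abs_mul, abs_of_nonneg (by positivity : (0 : ℝ) ≤ ((2 : ℝ) ^ k)⁻¹)]
  have h1 := (abs_sub (f (z + 1)) (f (z + 1 - ((2 ^ k : ℕ) : ℤ)))).trans
    (add_le_add (hb _) (hb _))
  calc ((2 : ℝ) ^ k)⁻¹ * |f (z + 1) - f (z + 1 - ((2 ^ k : ℕ) : ℤ))| ≤
      ((2 : ℝ) ^ k)⁻¹ * (4 / 3 * ((2 : ℝ) ^ k)⁻¹ + 4 / 3 * ((2 : ℝ) ^ k)⁻¹) :=
        mul_le_mul_of_nonneg_left h1 (by positivity)
    _ = 8 / 3 * (((2 : ℝ) ^ k)⁻¹ * ((2 : ℝ) ^ k)⁻¹) := by ring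

end

end Vale.Agent.P141.H795
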