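import Vale.Agent.P141.H795.Spline
import Vale.Agent.P141.H352.Flow

/-!
# P141, line (A): the Abel line on shifted dyadic grids

`In_shift`: the step of the kernels, tested on a function supported in the root, is exactly an
average over shifts `s` of equal scale triple Haar node forms of the translated function.
`In_shift_le`: with absolute values, on the three planes `ix (k + 1) y - j`, `j = 0, 1, 2`.
`abel_grid`: the Abel line with these kernels.
-/

namespace Vale.Agent.P141.H795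

open Finset
open Vale.Agent.P141.PL
open Vale.Agent.P141.PL.H560 (cbs)
open Vale.Agent.P141.H352 (In cb_part In_sub In_ksub sum_iv)

noncomputable section

/-- the shifts `0, 1` of the root -/
def E8 : Finset Pt := Icc 0 1 ×ˢ Icc 0 1 ×ˢ Icc 0 1

/-- the translated function, zero outside the root -/
def tr (N : ℕ) (M s : Pt) (F : Pt → ℝ) (x : Pt) : ℝ :=
  if cx N (x + s) = M then F (x + s) else 0

/-- the triple Haar node form of scale `k` on the cube `m` -/
def nd (k : ℕ) (m : Pt) (G : Pt → ℝ) : ℝ :=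
  ((2 : ℝ) ^ k)⁻¹ * ∑ x ∈ cb k m, hs k x.1 * hs k x.2.1 * hs k x.2.2 * G x

/-- the kernel of scale `k` as a function of the point -/
def kp (c : ℤ) (k : ℕ) (x : Pt) : ℝ := KK k (c - x.1 - x.2.1 - x.2.2)

/-- the base point of the planes of the shift `s` -/
def ys (c : ℤ) (s : Pt) : ℤ := c + 3 - s.1 - s.2.1 - s.2.2

theorem sum_range_iv (N : ℕ) (g : ℤ → ℝ) :
    ∑ s ∈ range (2 ^ N), g (s : ℤ) = ∑ s ∈ iv N 0, g s := by
  rw [sum_iv]
  refine sum_congr rfl fun i _ => ?_
  congr 1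
  ring

/-- `KK_shift` with the shifts in a cube -/
theorem kp_shift {k N : ℕ} (h : k + 1 ≤ N) (c : ℤ) (x : Pt) :
    kp c k x - kp c (k + 1) x = ((8 : ℝ) ^ N)⁻¹ * ∑ s ∈ cb N 0,
      W (ix k (ys c s) - 2 * ((cx (k + 1) (x - s)).1 + (cx (k + 1) (x - s)).2.1 +
        (cx (k + 1) (x - s)).2.2)) * (((2 : ℝ) ^ (k + 1))⁻¹ *
          (hs (k + 1) (x - s).1 * hs (k + 1) (x - s).2.1 * hs (k + 1) (x - s).2.2)) := by
  unfold kp
  rw [KK_shift k N h c x.1 x.2.1 x.2.2]
  congr 1
  unfold cb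
  rw [sum_product]
  simp only [sum_product]
  show _ = ∑ s1 ∈ iv N 0, ∑ s2 ∈ iv N 0, ∑ s3 ∈ iv N 0, _
  rw [← sum_range_iv N]
  refine sum_congr rfl fun s1 _ => ?_
  rw [← sum_range_iv N]
  refine sum_congr rfl fun s2 _ => ?_
  rw [← sum_range_iv N]
  rfl

theorem ix_shift {N : ℕ} {s x a : ℤ} (hs0 : ix N s = 0) (hx : ix N x = a) :
    ix N (x - s) = a ∨ ix N (x - s) = a - 1 := by
  rw [← mem_iv] at hs0 hx
  unfold iv at hs0 hx
  rw [mem_Ico] at hs0 hx
  by_cases h : 2 ^ N * a ≤ x - s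
  · left
    rw [← mem_iv]
    unfold iv
    rw [mem_Ico]
    constructor <;> linarith [hs0.1, hs0.2, hx.1, hx.2]
  · right
    rw [← mem_iv]
    unfold iv
    rw [mem_Ico]
    constructor <;> nlinarith [hs0.1, hs0.2, hx.1, hx.2]

/-- **Translation of the root.** -/
theorem sum_trans (N : ℕ) (M s : Pt) (hs0 : s ∈ cb N 0) (Φ F : Pt → ℝ) :
    ∑ x ∈ cb N M, Φ (x - s) * F x = ∑ e ∈ E8, ∑ x ∈ cb N (M - e), Φ x * tr N M s F x := by
  classical
  rw [mem_cb] at hs0
  have q1 : ix N s.1 = 0 := congrArg Prod.fst hs0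
  have q2 : ix N s.2.1 = 0 := congrArg (fun z : Pt => z.2.1) hs0
  have q3 : ix N s.2.2 = 0 := congrArg (fun z : Pt => z.2.2) hs0
  have one : ∀ x ∈ cb N M, ∑ e ∈ E8, (if cx N (x - s) = M - e then Φ (x - s) * F x else 0) =
      Φ (x - s) * F x := by
    intro x hx
    rw [mem_cb] at hx
    have p1 : ix N x.1 = M.1 := congrArg Prod.fst hx
    have p2 : ix N x.2.1 = M.2.1 := congrArg (fun z : Pt => z.2.1) hx
    have p3 : ix N x.2.2 = M.2.2 := congrArg (fun z : Pt => z.2.2) hx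
    have hmem : M - cx N (x - s) ∈ E8 := by
      unfold E8
      rw [mem_product, mem_product, mem_Icc, mem_Icc, mem_Icc]
      have r1 := ix_shift q1 p1
      have r2 := ix_shift q2 p2
      have r3 := ix_shift q3 p3
      show (0 ≤ M.1 - ix N (x.1 - s.1) ∧ M.1 - ix N (x.1 - s.1) ≤ 1) ∧
        (0 ≤ M.2.1 - ix N (x.2.1 - s.2.1) ∧ M.2.1 - ix N (x.2.1 - s.2.1) ≤ 1) ∧
        (0 ≤ M.2.2 - ix N (x.2.2 - s.2.2) ∧ M.2.2 - ix N (x.2.2 - s.2.2) ≤ 1)
      omega
    rw [sum_eq_single_of_mem _ hmem]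
    · rw [if_pos]
      rw [sub_sub_cancel]
    · intro e _ he
      rw [if_neg]
      intro h
      apply he
      rw [h, sub_sub_cancel]
  rw [sum_congr rfl fun x hx => (one x hx).symm, sum_comm]
  refine sum_congr rfl fun e _ => ?_
  unfold tr
  simp only [mul_ite, mul_zero]
  rw [← sum_filter, ← sum_filter]
  refine sum_nbij' (fun x => x - s) (fun x => x + s) ?_ ?_ ?_ ?_ ?_
  · intro x hx
    rw [mem_filter, mem_cb] at hx ⊢
    refine ⟨hx.2, ?_⟩
    rw [sub_add_cancel]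
    exact hx.1
  · intro x hx
    rw [mem_filter, mem_cb] at hx ⊢
    refine ⟨hx.2, ?_⟩
    rw [add_sub_cancel_right]
    exact hx.1
  · intro x _
    exact sub_add_cancel x s
  · intro x _
    exact add_sub_cancel_right x s
  · intro x _
    rw [sub_add_cancel]

/-- **The step of the kernels is an average of node forms over shifted grids (exact).** -/
theorem In_shift {k N : ℕ} (h : k + 1 ≤ N) (M : Pt) (c : ℤ) (F : Pt → ℝ) :
    In N M (fun x => kp c k x - kp c (k + 1) x) F =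
      ((8 : ℝ) ^ N)⁻¹ * ∑ s ∈ cb N 0, ∑ e ∈ E8, ∑ m ∈ cbs N (M - e) (k + 1),
        W (ix k (ys c s) - 2 * (m.1 + m.2.1 + m.2.2)) * nd (k + 1) m (tr N M s F) := by
  unfold In
  simp only [kp_shift h]
  simp only [mul_assoc, sum_mul]
  rw [← mul_sum, sum_comm]
  congr 1
  refine sum_congr rfl fun s hs0 => ?_
  have h1 := sum_trans N M s hs0 (fun x => W (ix k (ys c s) -
    2 * ((cx (k + 1) x).1 + (cx (k + 1) x).2.1 + (cx (k + 1) x).2.2)) *
      (((2 : ℝ) ^ (k + 1))⁻¹ * (hs (k + 1) x.1 * hs (k + 1) x.2.1 * hs (k + 1) x.2.2))) F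
  simp only [mul_assoc] at h1 ⊢
  rw [h1]
  refine sum_congr rfl fun e _ => ?_
  rw [cb_part h]
  refine sum_congr rfl fun m _ => ?_
  unfold nd
  rw [mul_sum, mul_sum]
  refine sum_congr rfl fun x hx => ?_
  rw [mem_cb] at hx
  rw [hx]
  ring

/-- the node forms of the step `k` on the grid `s`, absolute values, three planes -/
def TS (N : ℕ) (M : Pt) (c : ℤ) (k : ℕ) (s : Pt) (G : Pt → ℝ) : ℝ :=
  ∑ j ∈ Icc (0 : ℤ) 2, ∑ e ∈ E8,
    ∑ m ∈ cbs N (M - e) k with m.1 + m.2.1 + m.2.2 = ix k (ys c s) - j,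
      |nd k m (tr N M s G)|

theorem TS_nonneg (N : ℕ) (M : Pt) (c : ℤ) (k : ℕ) (s : Pt) (G : Pt → ℝ) : 0 ≤ TS N M c k s G :=
  sum_nonneg fun _ _ => sum_nonneg fun _ _ => sum_nonneg fun _ _ => abs_nonneg _

/-- one grid -/
theorem grid_le (k N : ℕ) (M s : Pt) (c : ℤ) (F : Pt → ℝ) :
    |∑ e ∈ E8, ∑ m ∈ cbs N (M - e) (k + 1),
        W (ix k (ys c s) - 2 * (m.1 + m.2.1 + m.2.2)) * nd (k + 1) m (tr N M s F)| ≤
      8 / 3 * TS N M c (k + 1) s F := by
  classical
  unfold TS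
  rw [sum_comm, mul_sum]
  refine (abs_sum_le_sum_abs _ _).trans (sum_le_sum fun e _ => ?_)
  refine (abs_sum_le_sum_abs _ _).trans ?_
  have h1 : ∀ m : Pt, |W (ix k (ys c s) - 2 * (m.1 + m.2.1 + m.2.2)) *
      nd (k + 1) m (tr N M s F)| ≤ 8 / 3 * ∑ j ∈ Icc (0 : ℤ) 2,
        if m.1 + m.2.1 + m.2.2 = ix (k + 1) (ys c s) - j then |nd (k + 1) m (tr N M s F)|
          else 0 := by
    intro m
    have e3 : (Icc (0 : ℤ) 2) = {0, 1, 2} := by decide
    rw [e3, sum_insert (by decide), sum_insert (by decide), sum_singleton, abs_mul]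
    have hn := abs_nonneg (nd (k + 1) m (tr N M s F))
    by_cases hW : W (ix k (ys c s) - 2 * (m.1 + m.2.1 + m.2.2)) = 0
    · rw [hW, abs_zero, zero_mul]
      refine mul_nonneg (by norm_num) (add_nonneg ?_ (add_nonneg ?_ ?_)) <;>
      · split_ifs
        · exact hn
        · exact le_rfl
    · have hb := mul_le_mul_of_nonneg_right (abs_W (ix k (ys c s) - 2 * (m.1 + m.2.1 + m.2.2))) hn
      refine hb.trans (mul_le_mul_of_nonneg_left ?_ (by norm_num))
      have g : ∀ P : Prop, ∀ _ : Decidable P, 0 ≤ if P then |nd (k + 1) m (tr N M s F)| else 0 := by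
        intro P _
        split_ifs
        · exact hn
        · exact le_rfl
      rcases W_plane hW with h | h | h
      · have := g (m.1 + m.2.1 + m.2.2 = ix (k + 1) (ys c s) - 1) inferInstance
        have := g (m.1 + m.2.1 + m.2.2 = ix (k + 1) (ys c s) - 2) inferInstance
        rw [if_pos (show m.1 + m.2.1 + m.2.2 = ix (k + 1) (ys c s) - 0 by omega)]
        linarith
      · have := g (m.1 + m.2.1 + m.2.2 = ix (k + 1) (ys c s) - 0) inferInstance
        have := g (m.1 + m.2.1 + m.2.2 = ix (k + 1) (ys c s) - 2) inferInstance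
        rw [if_pos h]
        linarith
      · have := g (m.1 + m.2.1 + m.2.2 = ix (k + 1) (ys c s) - 0) inferInstance
        have := g (m.1 + m.2.1 + m.2.2 = ix (k + 1) (ys c s) - 1) inferInstance
        rw [if_pos h]
        linarith
  refine (sum_le_sum fun m _ => h1 m).trans ?_
  rw [← mul_sum, sum_comm]
  simp only [sum_filter]
  exact le_rfl

/-- **The step of the kernels, absolute values.** -/
theorem In_shift_le {k N : ℕ} (h : k + 1 ≤ N) (M : Pt) (c : ℤ) (F : Pt → ℝ) :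
    |In N M (fun x => kp c k x - kp c (k + 1) x) F| ≤
      8 / 3 * (((8 : ℝ) ^ N)⁻¹ * ∑ s ∈ cb N 0, TS N M c (k + 1) s F) := by
  have h8 : (0 : ℝ) ≤ ((8 : ℝ) ^ N)⁻¹ := by positivity
  rw [In_shift h, abs_mul, abs_of_nonneg h8, mul_left_comm]
  refine mul_le_mul_of_nonneg_left ?_ h8
  refine (abs_sum_le_sum_abs _ _).trans ?_
  rw [mul_sum]
  exact sum_le_sum fun s _ => grid_le k N M s c F

/-- the planes of the shift `s` are admissible (the same formula as `H588.Pl`) -/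
theorem Pl_grid (c : ℤ) (s : Pt) {j : ℤ} (hj : j ∈ Icc (0 : ℤ) 2) :
    H352.Pl fun k => ix k (ys c s) - j := by
  rw [mem_Icc] at hj
  intro k
  exact plane_ok (ys c s) j hj.1 hj.2 k

/-- **The Abel line for any kernels, exact.** `G a b`: slot at the time `a`, functions at the
time `b`. -/
theorem abel_kap (N : ℕ) (M : Pt) (κ : ℕ → Pt → ℝ) (G : ℕ → ℕ → Pt → ℝ) (K : ℕ) :
    ∑ k ∈ range K, In N M (κ (k + 1)) (fun x => G k (k + 1) x - G (k + 1) (k + 1) x) =
      In N M (κ 0) (G 0 0) - In N M (κ K) (G K K)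
      - ∑ k ∈ range K, In N M (κ k) (fun x => G k k x - G k (k + 1) x)
      - ∑ k ∈ range K, In N M (fun x => κ k x - κ (k + 1) x) (G k (k + 1)) := by
  induction K with
  | zero => simp
  | succ K ih =>
    simp only [sum_range_succ]
    rw [ih]
    simp only [In_sub, In_ksub]
    ring

/-- **The Abel line on shifted grids.** -/
theorem abel_grid (N : ℕ) (M : Pt) (c : ℤ) (G : ℕ → ℕ → Pt → ℝ) (K : ℕ) (hK : K ≤ N) :
    |∑ k ∈ range K, In N M (kp c (k + 1)) (fun x => G k (k + 1) x - G (k + 1) (k + 1) x)| ≤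
      |In N M (kp c 0) (G 0 0)| + |In N M (kp c K) (G K K)|
      + ∑ k ∈ range K, |In N M (kp c k) (fun x => G k k x - G k (k + 1) x)|
      + 8 / 3 * (((8 : ℝ) ^ N)⁻¹ * ∑ s ∈ cb N 0, ∑ k ∈ range K,
          TS N M c (k + 1) s (G k (k + 1))) := by
  rw [abel_kap]
  have h1 : |∑ k ∈ range K, In N M (fun x => kp c k x - kp c (k + 1) x) (G k (k + 1))| ≤
      8 / 3 * (((8 : ℝ) ^ N)⁻¹ * ∑ s ∈ cb N 0, ∑ k ∈ range K,
          TS N M c (k + 1) s (G k (k + 1))) := by
    refine (abs_sum_le_sum_abs _ _).trans ?_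
    rw [sum_comm, mul_sum, mul_sum]
    refine sum_le_sum fun k hk => ?_
    rw [mem_range] at hk
    exact In_shift_le (by omega) M c (G k (k + 1))
  have h2 := abs_sum_le_sum_abs (fun k => In N M (kp c k) (fun x => G k k x - G k (k + 1) x))
    (range K)
  have h3 := abs_sub (In N M (kp c 0) (G 0 0)) (In N M (kp c K) (G K K))
  refine (abs_sub _ _).trans (add_le_add ((abs_sub _ _).trans (add_le_add h3 h2)) h1)

end

end Vale.Agent.P141.H795
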