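import Vale.Agent.P141.H677.SlotR

/-!
# P141, line (A): the raw bounds with a constant in front

`raw_const` : the blind and the signed bound with one constant `B` in front of everything give `Raw`
with `A = cA B q`.
-/

namespace Vale.Agent.P141.H795.RC

open Vale.Agent.P141.H677.Sk

noncomputable section

theorem exists_m (B : ℝ) (q : ℕ) : ∃ m : ℕ, B * (1 + (m : ℝ)) ^ q ≤ 2 ^ m := by
  have h : Filter.Tendsto (fun m : ℕ => ((m : ℝ)) ^ q / 2 ^ m) Filter.atTop (nhds 0) :=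
    tendsto_pow_const_div_const_pow_of_one_lt q (by norm_num)
  have h2 : Filter.Tendsto (fun m : ℕ => (2 * |B|) * (((m + 1 : ℕ) : ℝ) ^ q / 2 ^ (m + 1)))
      Filter.atTop (nhds ((2 * |B|) * 0)) :=
    (h.comp (Filter.tendsto_add_atTop_nat 1)).const_mul _
  rw [mul_zero] at h2
  obtain ⟨m, hm⟩ := (h2.eventually (gt_mem_nhds (by norm_num : (0 : ℝ) < 1))).exists
  refine ⟨m, ?_⟩
  have hp : (0 : ℝ) < 2 ^ m := by positivity
  have e : (2 * |B|) * (((m + 1 : ℕ) : ℝ) ^ q / 2 ^ (m + 1)) = |B| * (1 + (m : ℝ)) ^ q / 2 ^ m := by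
    push_cast
    rw [pow_succ (2 : ℝ) m, add_comm (m : ℝ) 1]
    field_simp
  rw [e, div_lt_one hp] at hm
  refine le_trans (mul_le_mul_of_nonneg_right (le_abs_self B) (by positivity)) hm.le

/-- the shift of the truncation -/
def mB (B : ℝ) (q : ℕ) : ℕ := (exists_m B q).choose

theorem mB_spec (B : ℝ) (q : ℕ) : B * (1 + (mB B q : ℝ)) ^ q ≤ 2 ^ mB B q :=
  (exists_m B q).choose_spec

/-- the constant -/
def cA (B : ℝ) (q : ℕ) : ℝ := (B * (1 + (mB B q : ℝ)) ^ q) ^ 2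

theorem cA_one {B : ℝ} (hB : 1 ≤ B) (q : ℕ) : 1 ≤ B * (1 + (mB B q : ℝ)) ^ q := by
  have h : (1 : ℝ) ≤ (1 + (mB B q : ℝ)) ^ q := one_le_pow₀ (by
    have : (0 : ℝ) ≤ mB B q := Nat.cast_nonneg _
    linarith)
  nlinarith

theorem one_le_cA {B : ℝ} (hB : 1 ≤ B) (q : ℕ) : 1 ≤ cA B q := by
  unfold cA
  exact one_le_pow₀ (cA_one hB q)

/-- **The raw bounds with a constant in front.** -/
theorem raw_const {q : ℕ} {C0 C1 B b y e0 κ E D X : ℝ} (hB : 1 ≤ B) (hb : 0 ≤ b) (hy : 0 < y)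
    (hE : 0 ≤ E) (hD : 0 ≤ D)
    (hbl : ∀ L : ℕ, X ≤ D * (B * (1 + (L : ℝ)) ^ q *
      (b * y ^ e0 + (1 + κ) ^ 2 * y ^ (-C0) / 2 ^ L)))
    (hsg : ∀ (L : ℕ) (δ : ℝ), 0 < δ → X ≤ D * (B * (1 + (L : ℝ)) ^ q *
      (δ + y ^ (-C1) * E / δ + E + (1 + κ) ^ 2 * y ^ (-C1) * (1 + 1 / δ) / 2 ^ L))) :
    Raw q C0 C1 (cA B q) b y e0 κ E D X := by
  set m := mB B q with hm
  set H := B * (1 + (m : ℝ)) ^ q with hH
  have hH1 : 1 ≤ H := cA_one hB q
  have hH0 : 0 < H := by linarith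
  have hH2 : H ≤ 2 ^ m := mB_spec B q
  have hA : H ^ 2 = cA B q := rfl
  have hHA : H ≤ cA B q := by rw [← hA]; nlinarith
  have y0 : 0 < y ^ e0 := Real.rpow_pos_of_pos hy _
  have y1 : 0 < y ^ (-C0) := Real.rpow_pos_of_pos hy _
  have y2 : 0 < y ^ (-C1) := Real.rpow_pos_of_pos hy _
  have hpow : ∀ L : ℕ, B * (1 + ((L + m : ℕ) : ℝ)) ^ q ≤ H * (1 + (L : ℝ)) ^ q := by
    intro L
    rw [hH, mul_assoc, ← mul_pow]
    refine mul_le_mul_of_nonneg_left (pow_le_pow_left₀ (by positivity) ?_ q) (by linarith)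
    push_cast
    have h1 : (0 : ℝ) ≤ L := Nat.cast_nonneg _
    have h2 : (0 : ℝ) ≤ m := Nat.cast_nonneg _
    nlinarith [mul_nonneg h1 h2]
  refine ⟨fun L => ?_, fun L δ hδ => ?_⟩
  · refine (hbl (L + m)).trans (mul_le_mul_of_nonneg_left ?_ hD)
    have p0 : (0 : ℝ) ≤ (1 + (L : ℝ)) ^ q := by positivity
    have e1 : (1 + κ) ^ 2 * y ^ (-C0) / 2 ^ (L + m) * H ≤ (1 + κ) ^ 2 * y ^ (-C0) / 2 ^ L := by
      rw [pow_add, div_mul_eq_mul_div, div_le_div_iff₀ (by positivity) (by positivity)]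
      have h3 : 0 ≤ (1 + κ) ^ 2 * y ^ (-C0) * 2 ^ L := by positivity
      calc (1 + κ) ^ 2 * y ^ (-C0) * H * 2 ^ L = (1 + κ) ^ 2 * y ^ (-C0) * 2 ^ L * H := by ring
        _ ≤ (1 + κ) ^ 2 * y ^ (-C0) * 2 ^ L * 2 ^ m := mul_le_mul_of_nonneg_left hH2 h3
        _ = _ := by ring
    calc B * (1 + ((L + m : ℕ) : ℝ)) ^ q *
          (b * y ^ e0 + (1 + κ) ^ 2 * y ^ (-C0) / 2 ^ (L + m))
        ≤ H * (1 + (L : ℝ)) ^ q * (b * y ^ e0 + (1 + κ) ^ 2 * y ^ (-C0) / 2 ^ (L + m)) :=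
          mul_le_mul_of_nonneg_right (hpow L) (by positivity)
      _ = (1 + (L : ℝ)) ^ q * (b * H * y ^ e0 + (1 + κ) ^ 2 * y ^ (-C0) / 2 ^ (L + m) * H) := by
          ring
      _ ≤ (1 + (L : ℝ)) ^ q * (b * cA B q * y ^ e0 + (1 + κ) ^ 2 * y ^ (-C0) / 2 ^ L) := by
          refine mul_le_mul_of_nonneg_left (add_le_add ?_ e1) p0
          exact mul_le_mul_of_nonneg_right (mul_le_mul_of_nonneg_left hHA hb) y0.le
  · refine (hsg (L + m) (H * δ) (by positivity)).trans (mul_le_mul_of_nonneg_left ?_ hD)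
    have p0 : (0 : ℝ) ≤ (1 + (L : ℝ)) ^ q := by positivity
    have e0' : (1 : ℝ) + 1 / (H * δ) ≤ 1 + 1 / δ := by
      have : 1 / (H * δ) ≤ 1 / δ := one_div_le_one_div_of_le hδ (by nlinarith)
      linarith
    have e1 : (1 + κ) ^ 2 * y ^ (-C1) * (1 + 1 / (H * δ)) / 2 ^ (L + m) * H ≤
        (1 + κ) ^ 2 * y ^ (-C1) * (1 + 1 / δ) / 2 ^ L := by
      have h4 : (1 + κ) ^ 2 * y ^ (-C1) * (1 + 1 / (H * δ)) ≤
          (1 + κ) ^ 2 * y ^ (-C1) * (1 + 1 / δ) := mul_le_mul_of_nonneg_left e0' (by positivity)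
      have h5 : 0 ≤ (1 + κ) ^ 2 * y ^ (-C1) * (1 + 1 / (H * δ)) := by positivity
      rw [pow_add, div_mul_eq_mul_div, div_le_div_iff₀ (by positivity) (by positivity)]
      calc (1 + κ) ^ 2 * y ^ (-C1) * (1 + 1 / (H * δ)) * H * 2 ^ L
          ≤ (1 + κ) ^ 2 * y ^ (-C1) * (1 + 1 / (H * δ)) * 2 ^ m * 2 ^ L := by
            refine mul_le_mul_of_nonneg_right (mul_le_mul_of_nonneg_left hH2 h5) (by positivity)
        _ ≤ (1 + κ) ^ 2 * y ^ (-C1) * (1 + 1 / δ) * 2 ^ m * 2 ^ L := by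
            refine mul_le_mul_of_nonneg_right (mul_le_mul_of_nonneg_right h4 (by positivity))
              (by positivity)
        _ = _ := by ring
    calc B * (1 + ((L + m : ℕ) : ℝ)) ^ q * (H * δ + y ^ (-C1) * E / (H * δ) + E +
          (1 + κ) ^ 2 * y ^ (-C1) * (1 + 1 / (H * δ)) / 2 ^ (L + m))
        ≤ H * (1 + (L : ℝ)) ^ q * (H * δ + y ^ (-C1) * E / (H * δ) + E +
          (1 + κ) ^ 2 * y ^ (-C1) * (1 + 1 / (H * δ)) / 2 ^ (L + m)) :=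
          mul_le_mul_of_nonneg_right (hpow L) (by positivity)
      _ = (1 + (L : ℝ)) ^ q * (H ^ 2 * δ + y ^ (-C1) * E / δ + H * E +
          (1 + κ) ^ 2 * y ^ (-C1) * (1 + 1 / (H * δ)) / 2 ^ (L + m) * H) := by
          field_simp
      _ ≤ (1 + (L : ℝ)) ^ q * (cA B q * δ + y ^ (-C1) * E / δ + cA B q * E +
          (1 + κ) ^ 2 * y ^ (-C1) * (1 + 1 / δ) / 2 ^ L) := by
          refine mul_le_mul_of_nonneg_left (add_le_add (add_le_add (add_le_add ?_ le_rfl) ?_) e1) p0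
          · exact le_of_eq (by rw [hA])
          · exact mul_le_mul_of_nonneg_right hHA hE

end

end Vale.Agent.P141.H795.RC
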