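import Vale.Agent.P141.H841.SlotQ
import Vale.Agent.P141.H677.RawFD
import Vale.Agent.P141.H470.LeafS0
import Vale.Agent.P141.H795.RawC

/-!
# P141, line (A): the field of the moves

* `Wn`, `aln` : the weights and the live scales of the function of the time `k + 1` at the scale `k`;
* `ctxN` : the data `H841.Ctx` of one slot with these live scales;
* `fld_q : RawField FQ`.
-/

namespace Vale.Agent.P141.H795.FQ

open Finset Matrix
open Vale.Agent.P141.PL (Pt iv ix mem_iv ix_ix cx cb)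
open Vale.Agent.P141.H43 (nsq nsq_nonneg)
open Vale.Agent.P141.H677 (KT GT MT kF rt)
open Vale.Agent.P141.H677.Sk
open Vale.Agent.P141.H841 (Ctx Rs Rm Mc Th1)
open Vale.Agent.P141.H401 (StX PartX Bun PartF FibU FibP)
open Vale.Agent.P141.H305 (ClsM kapM)

noncomputable section

open scoped Classical

set_option linter.unusedSectionVars false

variable {ι : Type} [Fintype ι] [DecidableEq ι]

/-- the live scales of the time `k + 1` -/
def aln (q : H401.Num) (K : ℕ) (x : Pt) (U : PL.H315.Tri) (x1 : ℤ) (k : ℕ) (y : ℤ) : Prop :=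
  ix K y = ix K x.2.2 ∧ ¬ H48.sst q.Lm U.2.1 K (min (k + 1) K) x1 y

/-- the weights of the time `k + 1` -/
def Wn (q : H401.Num) (K : ℕ) (U : PL.H315.Tri) (F2 : ℕ → Pt → ℝ) (x1 : ℤ) (k : ℕ) (x0 y : ℤ) : ℝ :=
  if k < K then kF q.Lm U.2.1 K F2 (k + 1) (x0, x1, y) ^ 2 else 0

section fd

variable {q : H401.Num} {n : ℕ} {ez : ℝ} {F1 F2 F3 : ℕ → Pt → ℝ} {o : ℤ} {K : ℕ} {x : Pt}
  {s r : ℝ} {U : PL.H315.Tri} {g : ℤ → ℤ → ℝ} {u v : ℤ → ℤ → ι → ℝ} {A : FamA}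
  {b C : FamV ι} {R : Slt ι} {κ E : ℝ} {Q1 Q2 Q3 : ℕ → Pt → Prop} {v' : ℤ → ℤ → ι → ℝ}

theorem Wn_nonneg (x1 : ℤ) (k : ℕ) (x0 y : ℤ) : 0 ≤ Wn q K U F2 x1 k x0 y := by
  unfold Wn
  split_ifs
  · exact sq_nonneg _
  · exact le_rfl

theorem Wn_line (D : FDs q n ez F1 F2 F3 K x s r U g u v A b C Q1 Q2 Q3 v') (hez : 0 ≤ ez)
    (hK : K ≤ n) (x1 : ℤ) (k : ℕ) (_ : k ≤ K) (j y : ℤ) :
    ∑ x0 ∈ iv k j, Wn q K U F2 x1 k x0 y ≤ ez * 2 ^ k := by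
  unfold Wn
  by_cases h : k < K
  · simp only [if_pos h]
    exact H58.kF_line D.B2 hez (lt_of_lt_of_le h hK) j x1 y
  · simp only [if_neg h, sum_const_zero]
    positivity

theorem Wn_al (x1 : ℤ) (y : ℤ) (hy : y ∈ iv K (cx K x).2.2) (k : ℕ)
    (h : ¬ aln q K x U x1 k y) (x0 : ℤ) : Wn q K U F2 x1 k x0 y = 0 := by
  unfold Wn
  split_ifs with hk
  · have h1 : H48.sst q.Lm U.2.1 K (k + 1) x1 y := by
      by_contra h2
      refine h ⟨mem_iv.1 hy, ?_⟩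
      rw [min_eq_left (by omega)]
      exact h2
    rw [H58.kF_dead F2 h1]
    norm_num
  · rfl

theorem aln_up (x1 y : ℤ) (k : ℕ) (_ : k < K) (h : aln q K x U x1 k y) :
    aln q K x U x1 (k + 1) y := by
  refine ⟨h.1, fun h2 => h.2 ?_⟩
  rcases Nat.lt_or_ge (k + 1) K with h3 | h3
  · rw [min_eq_left (by omega)] at h2 ⊢
    exact (H444.FD.stP_sst _ _ K).mono (k + 1) h3 _ _ h2
  · rw [min_eq_right (by omega)] at h2 ⊢
    exact h2

theorem lam1_nonneg (ht : 0 < q.t) (hr : 1 ≤ r) : 0 ≤ lam1 q s r := by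
  unfold H677.Sk.lam1
  have h1 : 0 < q.t ^ (-8 : ℝ) := Real.rpow_pos_of_pos ht _
  have h2 : 0 < r ^ (8 : ℝ) := Real.rpow_pos_of_pos (by linarith) _
  positivity

theorem aln_fib (D : FDs q n ez F1 F2 F3 K x s r U g u v A b C Q1 Q2 Q3 v')
    (hl : 0 ≤ lam1 q s r) {x1 : ℤ} (hx1 : x1 ∈ iv K (cx K x).1) (k : ℕ) (hk : k ≤ K) (y : ℤ)
    (h : aln q K x U x1 k y) :
    ∑ y' ∈ iv k (ix k y), nsq (v' x1 y') ≤ 2 * lam1 q s r * 2 ^ k := by
  have hf := D.fib (min (k + 1) K) (min_le_right _ _) x1 hx1 y (mem_iv.2 h.1) h.2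
  rcases Nat.lt_or_ge k K with h3 | h3
  · rw [min_eq_left (by omega)] at hf
    have h4 : iv k (ix k y) ⊆ iv (k + 1) (ix (k + 1) y) := by
      intro z hz
      rw [mem_iv] at hz ⊢
      rw [H841.ix_half, H841.ix_half, hz]
    refine (sum_le_sum_of_subset_of_nonneg h4 fun z _ _ => nsq_nonneg _).trans ?_
    refine le_trans hf (le_of_eq ?_)
    rw [pow_succ]
    ring
  · have h5 : k = K := by omega
    subst h5
    rw [min_eq_right (by omega)] at hf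
    refine le_trans hf ?_
    have : 0 ≤ lam1 q s r * 2 ^ k := by positivity
    linarith

/-- **The data of one slot with the live scales of the time `k + 1`.** -/
theorem ctxN (hS : SDat q n ez F1 F2 F3 o K x s r U g u v A b C R κ E)
    (D : FDs q n ez F1 F2 F3 K x s r U g u v A b C Q1 Q2 Q3 v') :
    ∃ sx : ℤ → ℕ → ℤ → ℤ → ℝ, Ctx K x s r (q.L * q.t ^ (2 - q.c) * √s) (q.lam s r) U g u v v'
      (q.al U K) o R κ E sx (2 * lam1 q s r) ((r / q.t) ^ 2 / 2) (aln q K x U) := by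
  obtain ⟨sx, h1, h2, h3⟩ := hS.slt.sgn
  have hl : 0 < q.lam s r := H401.Num.lam_pos (p := q) hS.t0 hS.s0 hS.r1
  have hL : 0 < q.L := by linarith [hS.L1]
  have ht2 : 0 < q.t ^ (2 - q.c) := Real.rpow_pos_of_pos hS.t0 _
  have hl1 := lam1_nonneg (q := q) (s := s) (r := r) hS.t0 hS.r1
  exact ⟨sx, {
    cls := hS.cls.toCls
    l0 := hl
    P0 := by positivity
    ori := hS.ho
    hv := H841.v'_le D
    s1 := h1
    s0 := h2
    hR := h3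
    cap := hS.slt.cap
    en := hS.slt.en
    E0 := hS.E0.le
    V0 := by positivity
    fib := fun x1 hx1 k hk y hy => aln_fib D hl1 hx1 k hk y hy
    Th := H841.Th_le hS.cls hS.t0 hl (lam_row hS.t0 hS.t1 hS.e00 hS.s0 hS.r1 hS.e01) }⟩

/-! ### The numbers -/

/-- numbers of the signed half -/
theorem num_s {ez s E δ w10 w12 Θ X κ Lc : ℝ} (K L : ℕ) (hez : 0 ≤ ez) (hs : 0 ≤ s) (hE : 0 ≤ E)
    (hδ : 0 < δ) (hX : X ≤ w10) (hw : w10 ≤ w12) (h0 : 0 ≤ w10) (hΘ0 : 0 ≤ Θ)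
    (hΘ : w10 * Θ ≤ w12) (hκ : 1 ≤ κ) (hL : 1 ≤ Lc) :
    41472 * ez * (1 + (L : ℝ)) ^ 3 *
        (s * 8 ^ K * (δ + X * (E / δ + (1 + Θ / δ) / 2 ^ L))) + 6 * ez * (E * (s * 8 ^ K)) ≤
      ez * s * 8 ^ K * (41472 * Lc * (1 + (L : ℝ)) ^ 3 *
        (δ + w12 * E / δ + E + (1 + κ) ^ 2 * w12 * (1 + 1 / δ) / 2 ^ L)) := by
  have h12 : 0 ≤ w12 := h0.trans hw
  have p3 : (1 : ℝ) ≤ (1 + (L : ℝ)) ^ 3 := one_le_pow₀ (by
    have : (0 : ℝ) ≤ L := Nat.cast_nonneg _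
    linarith)
  have a1 : X * (E / δ + (1 + Θ / δ) / 2 ^ L) ≤
      w12 * E / δ + (1 + κ) ^ 2 * w12 * (1 + 1 / δ) / 2 ^ L := by
    have b0 : 0 ≤ E / δ + (1 + Θ / δ) / 2 ^ L := by positivity
    refine (mul_le_mul_of_nonneg_right hX b0).trans ?_
    rw [mul_add]
    refine add_le_add ?_ ?_
    · rw [mul_div_assoc]
      exact mul_le_mul_of_nonneg_right hw (by positivity)
    · rw [← mul_div_assoc]
      refine div_le_div_of_nonneg_right ?_ (by positivity)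
      have c1 : w10 * (1 + Θ / δ) ≤ w12 * (1 + 1 / δ) := by
        rw [mul_add, mul_add]
        refine add_le_add (by linarith) ?_
        rw [← mul_div_assoc, ← mul_div_assoc, mul_one]
        exact div_le_div_of_nonneg_right hΘ hδ.le
      refine c1.trans ?_
      have c2 : 0 ≤ w12 * (1 + 1 / δ) := by positivity
      have c3 : (1 : ℝ) ≤ (1 + κ) ^ 2 := by nlinarith
      calc w12 * (1 + 1 / δ) = 1 * (w12 * (1 + 1 / δ)) := by ring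
        _ ≤ (1 + κ) ^ 2 * (w12 * (1 + 1 / δ)) := mul_le_mul_of_nonneg_right c3 c2
        _ = _ := by ring
  have b2 : 0 ≤ w12 * E / δ + (1 + κ) ^ 2 * w12 * (1 + 1 / δ) / 2 ^ L := by positivity
  have e8 : 0 ≤ ez * s * 8 ^ K := by positivity
  have d1 : 41472 * (1 + (L : ℝ)) ^ 3 * (δ + X * (E / δ + (1 + Θ / δ) / 2 ^ L)) ≤
      41472 * (1 + (L : ℝ)) ^ 3 *
        (δ + (w12 * E / δ + (1 + κ) ^ 2 * w12 * (1 + 1 / δ) / 2 ^ L)) :=
    mul_le_mul_of_nonneg_left (by linarith) (by positivity)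
  have d2 : 6 * E ≤ 41472 * (1 + (L : ℝ)) ^ 3 * E :=
    mul_le_mul_of_nonneg_right (by linarith) hE
  have d3 : 41472 * (1 + (L : ℝ)) ^ 3 *
        (δ + w12 * E / δ + E + (1 + κ) ^ 2 * w12 * (1 + 1 / δ) / 2 ^ L) ≤
      41472 * Lc * (1 + (L : ℝ)) ^ 3 *
        (δ + w12 * E / δ + E + (1 + κ) ^ 2 * w12 * (1 + 1 / δ) / 2 ^ L) := by
    refine mul_le_mul_of_nonneg_right ?_ (by positivity)
    refine mul_le_mul_of_nonneg_right (by linarith) (by positivity)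
  calc 41472 * ez * (1 + (L : ℝ)) ^ 3 *
        (s * 8 ^ K * (δ + X * (E / δ + (1 + Θ / δ) / 2 ^ L))) + 6 * ez * (E * (s * 8 ^ K))
      = ez * s * 8 ^ K * (41472 * (1 + (L : ℝ)) ^ 3 * (δ + X * (E / δ + (1 + Θ / δ) / 2 ^ L)) +
          6 * E) := by ring
    _ ≤ ez * s * 8 ^ K * (41472 * (1 + (L : ℝ)) ^ 3 *
        (δ + w12 * E / δ + E + (1 + κ) ^ 2 * w12 * (1 + 1 / δ) / 2 ^ L)) := by
        refine mul_le_mul_of_nonneg_left ?_ e8
        refine (add_le_add d1 d2).trans (le_of_eq ?_)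
        ring
    _ ≤ _ := mul_le_mul_of_nonneg_left d3 e8

/-- numbers of the blind half -/
theorem num_b {ez s b1 w10 X κ Lc : ℝ} (K L : ℕ) (hez : 0 ≤ ez) (hs : 0 ≤ s) (hX : X ≤ w10)
    (h0 : 0 ≤ w10) (hb : 0 ≤ b1) (hκ : 1 ≤ κ) (hL : 1 ≤ Lc) :
    3 * (ez * ((386 + 128 * (L : ℝ) ^ 3) * (Lc / 2 * b1) +
        1024 * (((L : ℝ) + 2) ^ 2 + 2) / 2 ^ L * X) * (s * 8 ^ K)) ≤
      ez * s * 8 ^ K * (41472 * Lc * (1 + (L : ℝ)) ^ 3 *
        (b1 + (1 + κ) ^ 2 * w10 / 2 ^ L)) := by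
  have hL0 : (0 : ℝ) ≤ L := Nat.cast_nonneg _
  have e8 : 0 ≤ ez * s * 8 ^ K := by positivity
  have p1 : 3 * (386 + 128 * (L : ℝ) ^ 3) * (Lc / 2) ≤ 41472 * Lc * (1 + (L : ℝ)) ^ 3 := by
    have : 3 * (386 + 128 * (L : ℝ) ^ 3) / 2 ≤ 41472 * (1 + (L : ℝ)) ^ 3 := by
      have q3 : 0 ≤ (L : ℝ) ^ 3 := by positivity
      have q2 : 0 ≤ (L : ℝ) ^ 2 := by positivity
      nlinarith
    calc 3 * (386 + 128 * (L : ℝ) ^ 3) * (Lc / 2) = Lc * (3 * (386 + 128 * (L : ℝ) ^ 3) / 2) := by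
          ring
      _ ≤ Lc * (41472 * (1 + (L : ℝ)) ^ 3) := mul_le_mul_of_nonneg_left this (by linarith)
      _ = _ := by ring
  have p2 : 3 * (1024 * (((L : ℝ) + 2) ^ 2 + 2)) ≤ 41472 * Lc * (1 + (L : ℝ)) ^ 3 := by
    have q3 : 0 ≤ (L : ℝ) ^ 3 := by positivity
    have q2 : 0 ≤ (L : ℝ) ^ 2 := by positivity
    have : 3 * (1024 * (((L : ℝ) + 2) ^ 2 + 2)) ≤ 41472 * (1 + (L : ℝ)) ^ 3 := by nlinarith
    refine this.trans ?_
    calc 41472 * (1 + (L : ℝ)) ^ 3 = 1 * (41472 * (1 + (L : ℝ)) ^ 3) := by ring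
      _ ≤ Lc * (41472 * (1 + (L : ℝ)) ^ 3) := mul_le_mul_of_nonneg_right hL (by positivity)
      _ = _ := by ring
  have c3 : (1 : ℝ) ≤ (1 + κ) ^ 2 := by nlinarith
  have a2 : X / 2 ^ L ≤ (1 + κ) ^ 2 * w10 / 2 ^ L := by
    refine div_le_div_of_nonneg_right (hX.trans ?_) (by positivity)
    calc w10 = 1 * w10 := by ring
      _ ≤ _ := mul_le_mul_of_nonneg_right c3 h0
  have a3 : 3 * (1024 * (((L : ℝ) + 2) ^ 2 + 2)) * (X / 2 ^ L) ≤
      41472 * Lc * (1 + (L : ℝ)) ^ 3 * ((1 + κ) ^ 2 * w10 / 2 ^ L) := by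
    refine (mul_le_mul_of_nonneg_left a2 (by positivity)).trans ?_
    exact mul_le_mul_of_nonneg_right p2 (by positivity)
  have a1 : 3 * (386 + 128 * (L : ℝ) ^ 3) * (Lc / 2) * b1 ≤
      41472 * Lc * (1 + (L : ℝ)) ^ 3 * b1 := mul_le_mul_of_nonneg_right p1 hb
  calc 3 * (ez * ((386 + 128 * (L : ℝ) ^ 3) * (Lc / 2 * b1) +
        1024 * (((L : ℝ) + 2) ^ 2 + 2) / 2 ^ L * X) * (s * 8 ^ K))
      = ez * s * 8 ^ K * (3 * (386 + 128 * (L : ℝ) ^ 3) * (Lc / 2) * b1 +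
          3 * (1024 * (((L : ℝ) + 2) ^ 2 + 2)) * (X / 2 ^ L)) := by ring
    _ ≤ ez * s * 8 ^ K * (41472 * Lc * (1 + (L : ℝ)) ^ 3 * b1 +
          41472 * Lc * (1 + (L : ℝ)) ^ 3 * ((1 + κ) ^ 2 * w10 / 2 ^ L)) :=
        mul_le_mul_of_nonneg_left (add_le_add a1 a3) e8
    _ = _ := by ring

/-- the powers of `t / r` -/
theorem pw {t r : ℝ} (ht : 0 < t) (hr : 0 < r) (a : ℝ) : (t / r) ^ (-a) = (r / t) ^ a := by
  rw [Real.rpow_neg (by positivity), ← Real.inv_rpow (by positivity), inv_div]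

/-- the left side of the field -/
theorem lhs_q (D : FDs q n ez F1 F2 F3 K x s r U g u v A b C Q1 Q2 Q3 v') {sx : ℤ → ℕ → ℤ → ℤ → ℝ}
    (c : Ctx K x s r (q.L * q.t ^ (2 - q.c) * √s) (q.lam s r) U g u v v'
      (q.al U K) o R κ E sx (2 * lam1 q s r) ((r / q.t) ^ 2 / 2) (aln q K x U)) (h : ℤ) :
    ∑ t ∈ rt (cx K x), ∑ x0 ∈ iv K t, ∑ k ∈ range K, ∑ x1 ∈ iv K (cx K x).1,
      ∑ z ∈ iv K (cx K x).2.2,
        nsq ((av R h x0 k z x1 - av R h x0 (k + 1) z x1) *ᵥ C x0 (k + 1) z x1) =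
    ∑ t ∈ rt (cx K x), ∑ x1 ∈ iv K (cx K x).1, ∑ y ∈ iv K (cx K x).2.2, ∑ k ∈ range K,
      ∑ x0 ∈ iv K t, Wn q K U F2 x1 k x0 y *
        nsq ((Rs (Mc (q.lam s r) K (cx K x).2.1 u x1) o x1 (sx x1) K h k x0 (ix k (y - h)) -
          Rs (Mc (q.lam s r) K (cx K x).2.1 u x1) o x1 (sx x1) K h (k + 1) x0
            (ix (k + 1) (y - h))) *ᵥ v' x1 y) := by
  refine sum_congr rfl fun t _ => ?_
  rw [H483.sum4]
  refine sum_congr rfl fun x1 _ => sum_congr rfl fun y _ => sum_congr rfl fun k hk =>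
    sum_congr rfl fun x0 _ => ?_
  rw [c.avc, c.avc, D.C_eq, mulVec_smul, H841.nsq_smul]
  unfold Wn
  rw [if_pos (mem_range.1 hk)]

end fd

/-- **The field of the moves.** -/
theorem fld_q : RawField FQ := by
  refine ⟨3, 10, 12, fun p => RC.cA (41472 * p.L) 3, ?_⟩
  intro ι _ _ q n ez F1 F2 F3 o K x s r U g u v A b C R κ E hS h _
  obtain ⟨Q1, Q2, Q3, v', D⟩ := hS.dat
  obtain ⟨sx, c⟩ := ctxN hS D
  have hez : 0 ≤ ez := hS.hF2.1
  have hr0 : 0 < r := by linarith [hS.r1]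
  have hy : 0 < q.t / r := div_pos hS.t0 hr0
  have hy1 : q.t / r ≤ 1 := by
    rw [div_le_one hr0]
    linarith [hS.t1, hS.r1]
  have hb : 0 ≤ q.t ^ (-q.c) := Real.rpow_nonneg hS.t0.le _
  have w10 : 0 ≤ (q.t / r) ^ (-10 : ℝ) := Real.rpow_nonneg hy.le _
  have h1012 : (q.t / r) ^ (-10 : ℝ) ≤ (q.t / r) ^ (-12 : ℝ) :=
    Real.rpow_le_rpow_of_exponent_ge hy hy1 (by norm_num)
  have hX : 2 * lam1 q s r / (2 * q.lam s r) ≤ (q.t / r) ^ (-10 : ℝ) := by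
    rw [mul_div_mul_left _ _ (two_ne_zero), pw hS.t0 hr0]
    exact H470.FS.lam1_div hS.t0 hS.t1 hS.s0 hS.r1 hS.e00.le
  have hΘ : (q.t / r) ^ (-10 : ℝ) * ((r / q.t) ^ 2 / 2) ≤ (q.t / r) ^ (-12 : ℝ) := by
    have e2 : (r / q.t) ^ 2 = (q.t / r) ^ (-2 : ℝ) := by
      rw [pw hS.t0 hr0]
      norm_num
    have e3 : (q.t / r) ^ (-12 : ℝ) = (q.t / r) ^ (-10 : ℝ) * (q.t / r) ^ (-2 : ℝ) := by
      rw [← Real.rpow_add hy]
      norm_num
    rw [e2, e3]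
    have : 0 ≤ (q.t / r) ^ (-2 : ℝ) := Real.rpow_nonneg hy.le _
    exact mul_le_mul_of_nonneg_left (by linarith) w10
  have hcst : (cst q).L = q.L := rfl
  show Raw 3 10 12 (RC.cA (41472 * (cst q).L) 3) (q.t ^ (-q.c)) (q.t / r) q.e0 κ E
    (ez * s * 8 ^ K) _
  rw [hcst, lhs_q D c h.2.2]
  refine RC.raw_const (by linarith [hS.L1]) hb hy hS.E0.le
    (mul_nonneg (mul_nonneg hez hS.s0.le) (by positivity)) (fun L => ?_) (fun L δ hδ => ?_)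
  · have H := c.S2tb (W := Wn q K U F2) hez (fun x1 k x0 y => Wn_nonneg x1 k x0 y)
      (fun x1 k hk j y => Wn_line D hez hS.hK x1 k hk j y)
      (fun x1 _ y _ k hk h => aln_up x1 y k hk h)
      (fun x1 _ y hy k _ h x0 => Wn_al x1 y hy k h x0) L h.2.2
    refine H.trans ?_
    rw [m_eq hS.t0 hS.s0 hS.r1]
    exact num_b K L hez hS.s0.le hX w10 (by positivity) hS.κ1 hS.L1
  · have H := c.S2t (W := Wn q K U F2) hez (fun x1 k x0 y => Wn_nonneg x1 k x0 y)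
      (fun x1 k hk j y => Wn_line D hez hS.hK x1 k hk j y)
      (fun x1 _ y _ k hk h => aln_up x1 y k hk h)
      (fun x1 _ y hy k _ h x0 => Wn_al x1 y hy k h x0) L h.2.2 hδ
    refine H.trans ?_
    exact num_s K L hez hS.s0.le hS.E0.le hδ hX h1012 w10 (by positivity) hΘ hS.κ1 hS.L1

end

end Vale.Agent.P141.H795.FQ
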