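import Vale.Agent.P141.H876.ShiftY
import Vale.Agent.P141.H185.EnRs
import Vale.Agent.P141.H841.ShiftR

/-!
# P141, line (A): the moving slot on a shifted grid, energies with signs

Letters of `H841.Lay`, `H876.ShiftY`.  Combinatorial part: a family `Lc i q` of numbers of the
cells of scale `i + 1` with small sums along every path.

* `Wd` : three roots; `PS` : the sum of a layer over the three roots;
* `coarse_sum`, `fine_near`, `fine_far` : the three parts of the sum over `y`;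
* `core` : the sum over `y`, over the scales and over the layers.
-/

namespace Vale.Agent.P141.H795.SE

open Finset Matrix
open Vale.Agent.P141.PL (iv ix hs mem_iv ix_ix card_iv)
open Vale.Agent.P141.H922 (ck iv_iv)
open Vale.Agent.P141.H43 (avv nsq nsq_nonneg)
open Vale.Agent.P141.H841 (Lm Rm Rs Nn Nn_nonneg om om_nonneg st st_bd dev_le Lm_le nsq_add_le
  nsq_sub_le ep ep_nonneg Nrb ix_bd ix_of)
open Vale.Agent.P141.H876 (En En_nonneg wn wt_Nn wt_cell near_root)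

noncomputable section

open scoped Classical

/-- three roots -/
def Wd (m : ℕ) (M : ℤ) : Finset ℤ := Ico (2 ^ m * (M - 1)) (2 ^ m * (M + 2))

theorem mem_Wd {m : ℕ} {M x : ℤ} : x ∈ Wd m M ↔ M - 1 ≤ ix m x ∧ ix m x ≤ M + 1 := by
  have hp : (0 : ℤ) < 2 ^ m := by positivity
  unfold Wd
  rw [mem_Ico]
  obtain ⟨a1, a2⟩ := ix_bd m x
  constructor
  · rintro ⟨h1, h2⟩
    constructor
    · by_contra h
      have h3 : ix m x + 1 ≤ M - 1 := by omega
      have h4 : (2 : ℤ) ^ m * (ix m x + 1) ≤ 2 ^ m * (M - 1) := mul_le_mul_of_nonneg_left h3 hp.le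
      linarith
    · by_contra h
      have h3 : M + 2 ≤ ix m x := by omega
      have h4 : (2 : ℤ) ^ m * (M + 2) ≤ 2 ^ m * ix m x := mul_le_mul_of_nonneg_left h3 hp.le
      linarith
  · rintro ⟨h1, h2⟩
    have h3 : (2 : ℤ) ^ m * (M - 1) ≤ 2 ^ m * ix m x := mul_le_mul_of_nonneg_left h1 hp.le
    have h4 : (2 : ℤ) ^ m * ix m x ≤ 2 ^ m * (M + 1) := mul_le_mul_of_nonneg_left h2 hp.le
    constructor <;> linarith

theorem Wd_sum (m : ℕ) (M : ℤ) (f : ℤ → ℝ) :
    ∑ x ∈ Wd m M, f x = ∑ x ∈ iv m (M - 1), f x + ∑ x ∈ iv m M, f x + ∑ x ∈ iv m (M + 1), f x := by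
  have hp : (0 : ℤ) < 2 ^ m := by positivity
  have e : Wd m M = (iv m (M - 1) ∪ iv m M) ∪ iv m (M + 1) := by
    ext x
    simp only [mem_union, mem_Wd, mem_iv]
    omega
  rw [e, sum_union, sum_union]
  · rw [disjoint_left]
    intro x h1 h2
    rw [mem_iv] at h1 h2
    omega
  · rw [disjoint_left]
    intro x h1 h2
    rw [mem_union, mem_iv, mem_iv] at h1
    rw [mem_iv] at h2
    omega

/-- the sum over the cells of the three roots -/
theorem Wd_cells {j m : ℕ} (hj : j ≤ m) (M : ℤ) (F : ℤ → ℝ) :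
    2 ^ j * ∑ c ∈ Wd (m - j) M, F c = ∑ p ∈ Wd m M, F (ix j p) := by
  have h : ∀ R : ℤ, ∑ p ∈ iv m R, F (ix j p) = 2 ^ j * ∑ c ∈ iv (m - j) R, F c := by
    intro R
    rw [← iv_iv hj, mul_sum]
    refine sum_congr rfl fun a _ => ?_
    rw [sum_congr rfl fun x hx => by rw [mem_iv.1 hx], sum_const, card_iv, nsmul_eq_mul]
    push_cast
    rfl
  rw [Wd_sum, Wd_sum, h, h, h]
  ring

theorem Wd_card (m : ℕ) (M : ℤ) : ((Wd m M).card : ℝ) = 3 * 2 ^ m := by
  have h := Wd_sum m M fun _ => 1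
  simp only [sum_const, nsmul_eq_mul, mul_one, card_iv] at h
  rw [h]
  push_cast
  ring

/-- shifts by one cell stay in the three roots -/
theorem shift_le (m : ℕ) (M d : ℤ) (h1 : -1 ≤ d) (h2 : d ≤ 1) {F : ℤ → ℝ} (hF : ∀ c, 0 ≤ F c) :
    ∑ c ∈ iv m M, F (c + d) ≤ ∑ c ∈ Wd m M, F c := by
  have hp : (1 : ℤ) ≤ 2 ^ m := one_le_pow₀ (by norm_num)
  rw [← sum_image (s := iv m M) (g := fun c => c + d) (f := F) fun a _ b _ hab => by
    have : a + d = b + d := hab
    omega]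
  refine sum_le_sum_of_subset_of_nonneg (fun x hx => ?_) fun c _ _ => hF c
  rw [mem_image] at hx
  obtain ⟨a, ha, rfl⟩ := hx
  unfold PL.iv at ha
  rw [mem_Ico] at ha
  unfold Wd
  rw [mem_Ico]
  constructor <;> nlinarith [ha.1, ha.2]

section Core

variable {n : ℕ} {M3 : ℤ} {al : ℕ → ℤ → Prop} {w : ℤ → ℝ} {V : ℝ}

/-- one cell -/
theorem cell_le {k : ℕ} (hw : ∀ y, 0 ≤ w y) (hV0 : 0 ≤ V)
    (hV : ∀ y, al k y → ∑ y' ∈ iv k (ix k y), w y' ≤ V * 2 ^ k) (q : ℤ) :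
    ∑ y ∈ iv k q, (if al k y then w y else 0) ≤ V * 2 ^ k := by
  by_cases h : ∃ y ∈ iv k q, al k y
  · obtain ⟨y, hy, ha⟩ := h
    refine (sum_le_sum fun y' _ => ?_).trans (by
      have := hV y ha
      rw [mem_iv.1 hy] at this
      exact this)
    split_ifs
    · exact le_rfl
    · exact hw y'
  · push Not at h
    rw [sum_eq_zero fun y hy => if_neg (h y hy)]
    positivity

/-- the root -/
theorem root_le {k : ℕ} (hk : k ≤ n) (hw : ∀ y, 0 ≤ w y) (hV0 : 0 ≤ V)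
    (hV : ∀ y, al k y → ∑ y' ∈ iv k (ix k y), w y' ≤ V * 2 ^ k) (M : ℤ) :
    ∑ y ∈ iv n M, (if al k y then w y else 0) ≤ V * 2 ^ n := by
  rw [← iv_iv hk]
  refine (sum_le_sum fun a _ => cell_le hw hV0 hV a).trans (le_of_eq ?_)
  rw [sum_const, card_iv, nsmul_eq_mul]
  push_cast
  have e2 : (2 : ℝ) ^ (n - k) * 2 ^ k = 2 ^ n := by rw [← pow_add, Nat.sub_add_cancel hk]
  calc (2 : ℝ) ^ (n - k) * (V * 2 ^ k) = V * (2 ^ (n - k) * 2 ^ k) := by ring
    _ = V * 2 ^ n := by rw [e2]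

/-- one cell of the shifted grid -/
theorem shcell_le {k : ℕ} (hw : ∀ y, 0 ≤ w y) (hV0 : 0 ≤ V)
    (hV : ∀ y, al k y → ∑ y' ∈ iv k (ix k y), w y' ≤ V * 2 ^ k) (sh m : ℤ) (I : Finset ℤ) :
    ∑ y ∈ I.filter (fun y => ix k (y - sh) = m), (if al k y then w y else 0) ≤ 2 * (V * 2 ^ k) := by
  have hg : ∀ y, 0 ≤ (if al k y then w y else 0) := fun y => by
    split_ifs
    · exact hw y
    · exact le_rfl
  set a : ℤ := 2 ^ k * m + sh with ha
  have hsub : I.filter (fun y => ix k (y - sh) = m) ⊆ iv k (ix k a) ∪ iv k (ix k a + 1) := by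
    intro y hy
    rw [mem_filter] at hy
    obtain ⟨b1, b2⟩ := ix_bd k (y - sh)
    rw [hy.2] at b1 b2
    obtain ⟨c1, c2⟩ := ix_bd k a
    rw [mem_union, mem_iv, mem_iv]
    by_cases h : y < 2 ^ k * ix k a + 2 ^ k
    · left
      exact ix_of (by linarith) h
    · right
      refine ix_of ?_ ?_
      · have : (2 : ℤ) ^ k * (ix k a + 1) = 2 ^ k * ix k a + 2 ^ k := by ring
        rw [this]
        linarith
      · have : (2 : ℤ) ^ k * (ix k a + 1) = 2 ^ k * ix k a + 2 ^ k := by ring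
        rw [this]
        linarith
  refine (sum_le_sum_of_subset_of_nonneg hsub fun y _ _ => hg y).trans ?_
  have h3 := sum_union_inter (s₁ := iv k (ix k a)) (s₂ := iv k (ix k a + 1))
    (f := fun y => if al k y then w y else 0)
  have h4 : 0 ≤ ∑ y ∈ iv k (ix k a) ∩ iv k (ix k a + 1), (if al k y then w y else 0) :=
    sum_nonneg fun y _ => hg y
  have h5 := cell_le (al := al) hw hV0 hV (ix k a)
  have h6 := cell_le (al := al) hw hV0 hV (ix k a + 1)
  linarith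

/-- **Fine layers: the ends of the cells of the shifted grid.** -/
theorem fine_ends {k i : ℕ} (hik : i < k) (hk : k ≤ n) (hw : ∀ y, 0 ≤ w y) (hV0 : 0 ≤ V)
    (hV : ∀ y, al k y → ∑ y' ∈ iv k (ix k y), w y' ≤ V * 2 ^ k) (sh : ℤ) {F : ℤ → ℝ}
    (hF : ∀ c, 0 ≤ F c) :
    ∑ y ∈ iv n M3, (if al k y then w y else 0) *
        (F (ix (i + 1) (st sh k y)) + F (ix (i + 1) (st sh k y + 2 ^ k))) ≤
      4 * (V * 2 ^ k) * ∑ c ∈ Wd (n - (i + 1)) M3, F c := by
  have hp : (0 : ℤ) < 2 ^ k := by positivity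
  have hg : ∀ y, 0 ≤ (if al k y then w y else 0) := fun y => by
    split_ifs
    · exact hw y
    · exact le_rfl
  set J : Finset ℤ := (iv n M3).image fun y => ix k (y - sh) with hJ
  have e1 : ∑ y ∈ iv n M3, (if al k y then w y else 0) *
        (F (ix (i + 1) (st sh k y)) + F (ix (i + 1) (st sh k y + 2 ^ k))) =
      ∑ m ∈ J, ∑ y ∈ (iv n M3).filter (fun y => ix k (y - sh) = m),
        (if al k y then w y else 0) *
        (F (ix (i + 1) (st sh k y)) + F (ix (i + 1) (st sh k y + 2 ^ k))) :=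
    (sum_fiberwise_of_maps_to (fun y hy => mem_image_of_mem _ hy) _).symm
  rw [e1]
  have e2 : ∀ m ∈ J, ∑ y ∈ (iv n M3).filter (fun y => ix k (y - sh) = m),
        (if al k y then w y else 0) *
        (F (ix (i + 1) (st sh k y)) + F (ix (i + 1) (st sh k y + 2 ^ k))) ≤
      2 * (V * 2 ^ k) * (F (ix (i + 1) (2 ^ k * m + sh)) +
        F (ix (i + 1) (2 ^ k * m + sh + 2 ^ k))) := by
    intro m _
    have e3 : ∀ y ∈ (iv n M3).filter (fun y => ix k (y - sh) = m),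
        (if al k y then w y else 0) *
        (F (ix (i + 1) (st sh k y)) + F (ix (i + 1) (st sh k y + 2 ^ k))) =
        (if al k y then w y else 0) * (F (ix (i + 1) (2 ^ k * m + sh)) +
        F (ix (i + 1) (2 ^ k * m + sh + 2 ^ k))) := by
      intro y hy
      rw [mem_filter] at hy
      unfold H841.st
      rw [hy.2]
    rw [sum_congr rfl e3, ← sum_mul]
    exact mul_le_mul_of_nonneg_right (shcell_le hw hV0 hV sh m _) (add_nonneg (hF _) (hF _))
  refine (sum_le_sum e2).trans ?_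
  rw [← mul_sum, sum_add_distrib]
  have hd : (2 : ℤ) ^ (i + 1) ∣ 2 ^ k := pow_dvd_pow 2 hik
  have hle : (2 : ℤ) ^ (i + 1) ≤ 2 ^ k := pow_le_pow_right₀ (by norm_num) hik
  have hi0 : (0 : ℤ) < 2 ^ (i + 1) := by positivity
  have inj : ∀ b : ℤ, ∑ m ∈ J, F (ix (i + 1) (2 ^ k * m + b)) =
      ∑ c ∈ J.image (fun m => ix (i + 1) (2 ^ k * m + b)), F c := by
    intro b
    refine (sum_image ?_).symm
    intro x _ y _ hxy
    have h : ix (i + 1) (2 ^ k * x + b) = ix (i + 1) (2 ^ k * y + b) := hxy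
    obtain ⟨c1, c2⟩ := ix_bd (i + 1) (2 ^ k * x + b)
    obtain ⟨d1, d2⟩ := ix_bd (i + 1) (2 ^ k * y + b)
    rw [h] at c1 c2
    by_contra hne
    rcases lt_or_gt_of_ne hne with h1 | h1
    · have h2 : (2 : ℤ) ^ k * (x + 1) ≤ 2 ^ k * y := mul_le_mul_of_nonneg_left (by omega) hp.le
      nlinarith
    · have h2 : (2 : ℤ) ^ k * (y + 1) ≤ 2 ^ k * x := mul_le_mul_of_nonneg_left (by omega) hp.le
      nlinarith
  have sub : ∀ b : ℤ, (∀ y ∈ iv n M3, 2 ^ k * ix k (y - sh) + b ≤ y + 2 ^ k ∧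
      y - 2 ^ k ≤ 2 ^ k * ix k (y - sh) + b) →
      ∑ m ∈ J, F (ix (i + 1) (2 ^ k * m + b)) ≤ ∑ c ∈ Wd (n - (i + 1)) M3, F c := by
    intro b hb
    rw [inj]
    refine sum_le_sum_of_subset_of_nonneg (fun c hc => ?_) fun c _ _ => hF c
    rw [mem_image] at hc
    obtain ⟨m, hm, rfl⟩ := hc
    rw [hJ, mem_image] at hm
    obtain ⟨y, hy, rfl⟩ := hm
    obtain ⟨b1, b2⟩ := hb y hy
    rw [mem_Wd, ix_ix, Nat.add_sub_cancel' (by omega : i + 1 ≤ n)]
    have h := H876.near_root hk (p := 2 ^ k * ix k (y - sh) + b) (y := y) b2 b1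
    rw [mem_iv.1 hy] at h
    exact h
  have s1 := sub sh fun y _ => by
    have h := st_bd sh k y
    unfold H841.st at h
    constructor <;> linarith [h.1, h.2]
  have s2 := sub (sh + 2 ^ k) fun y _ => by
    have h := st_bd sh k y
    unfold H841.st at h
    constructor <;> linarith [h.1, h.2]
  simp only [← add_assoc] at s2
  have hc : 0 ≤ 2 * (V * 2 ^ k) := by positivity
  refine (mul_le_mul_of_nonneg_left (add_le_add s1 s2) hc).trans (le_of_eq ?_)
  ring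

/-- **Coarse layers: the strips.** -/
theorem coarse_ends {k i : ℕ} (hki : k ≤ i) (hi : i < n) (hw : ∀ y, 0 ≤ w y) (hV0 : 0 ≤ V)
    (hV : ∀ y, al k y → ∑ y' ∈ iv k (ix k y), w y' ≤ V * 2 ^ k) (sh : ℤ) {F : ℤ → ℝ}
    (hF : ∀ c, 0 ≤ F c) :
    ∑ y ∈ iv n M3, (if al k y then w y else 0) * (om sh k i y *
        (F (ix (i + 1) (st sh k y)) + F (ix (i + 1) (st sh k y + 2 ^ k)))) ≤
      192 * ((i + 1 - k : ℕ) : ℝ) ^ 2 * (V * 2 ^ k) * ∑ c ∈ Wd (n - (i + 1)) M3, F c := by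
  have hp : (0 : ℤ) < 2 ^ k := by positivity
  have hle : (2 : ℤ) ^ k ≤ 2 ^ (i + 1) := pow_le_pow_right₀ (by norm_num) (by omega)
  set S : ℤ → ℝ := fun q => F (q + -1) + F (q + 0) + F (q + 1) with hS
  have hS0 : ∀ q, 0 ≤ S q := fun q => by
    have := hF (q + -1)
    have := hF (q + 0)
    have := hF (q + 1)
    simp only [hS]
    linarith
  have near : ∀ p y : ℤ, y - 2 ^ k ≤ p → p ≤ y + 2 ^ k → F (ix (i + 1) p) ≤ S (ix (i + 1) y) := by
    intro p y h1 h2
    have h := H876.near_root (n := i + 1) (by omega : k ≤ i + 1) h1 h2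
    have := hF (ix (i + 1) y + -1)
    have := hF (ix (i + 1) y + 0)
    have := hF (ix (i + 1) y + 1)
    have h3 : ix (i + 1) p = ix (i + 1) y + -1 ∨ ix (i + 1) p = ix (i + 1) y + 0 ∨
        ix (i + 1) p = ix (i + 1) y + 1 := by omega
    simp only [hS]
    rcases h3 with h3 | h3 | h3 <;> rw [h3] <;> linarith
  have e1 : ∀ y ∈ iv n M3, (if al k y then w y else 0) * (om sh k i y *
        (F (ix (i + 1) (st sh k y)) + F (ix (i + 1) (st sh k y + 2 ^ k)))) ≤
      16 * ((i + 1 - k : ℕ) : ℝ) ^ 2 *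
        ((if Nrb k i y ∧ al k y then w y else 0) * S (ix (i + 1) y)) := by
    intro y _
    by_cases ha : al k y
    · rw [if_pos ha, H690.om_stg hki]
      obtain ⟨t1, t2⟩ := st_bd sh k y
      have f1 := near (st sh k y) y (by linarith) (by linarith)
      have f2 := near (st sh k y + 2 ^ k) y (by linarith) (by linarith)
      by_cases hc : ix i (st sh k y) = ix i (st sh k y + 2 ^ k)
      · unfold H690.stg
        rw [if_pos hc, mul_zero, zero_mul, mul_zero]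
        refine mul_nonneg (by positivity) (mul_nonneg ?_ (hS0 _))
        split_ifs
        · exact hw y
        · exact le_rfl
      · have h2 : Nrb k i y := H690.stg_near hc
        unfold H690.stg
        rw [if_neg hc, if_pos ⟨h2, ha⟩, mul_one]
        have h3 : (0 : ℝ) ≤ w y * (8 * ((i + 1 - k : ℕ) : ℝ) ^ 2) :=
          mul_nonneg (hw y) (by positivity)
        calc w y * (8 * ((i + 1 - k : ℕ) : ℝ) ^ 2 *
            (F (ix (i + 1) (st sh k y)) + F (ix (i + 1) (st sh k y + 2 ^ k)))) =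
            w y * (8 * ((i + 1 - k : ℕ) : ℝ) ^ 2) *
            (F (ix (i + 1) (st sh k y)) + F (ix (i + 1) (st sh k y + 2 ^ k))) := by ring
          _ ≤ w y * (8 * ((i + 1 - k : ℕ) : ℝ) ^ 2) *
            (S (ix (i + 1) y) + S (ix (i + 1) y)) :=
            mul_le_mul_of_nonneg_left (add_le_add f1 f2) h3
          _ = _ := by ring
    · rw [if_neg ha, zero_mul, if_neg fun h => ha h.2, zero_mul, mul_zero]
  refine (sum_le_sum e1).trans ?_
  rw [← mul_sum]
  have hin : i + 1 ≤ n := hi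
  have e2 : ∑ y ∈ iv n M3, (if Nrb k i y ∧ al k y then w y else 0) * S (ix (i + 1) y) ≤
      4 * (V * 2 ^ k) * ∑ c ∈ iv (n - (i + 1)) M3, S c := by
    rw [← iv_iv hin, mul_sum]
    refine sum_le_sum fun c _ => ?_
    have e3 : ∀ y ∈ iv (i + 1) c, (if Nrb k i y ∧ al k y then w y else 0) * S (ix (i + 1) y) =
        (if Nrb k i y ∧ al k y then w y else 0) * S c := fun y hy => by rw [mem_iv.1 hy]
    rw [sum_congr rfl e3, ← sum_mul]
    have h := H444.FD.strip (n := i + 1) hki (by omega) hw hV0 hV c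
    have e4 : i + 1 - i = 1 := by omega
    rw [e4] at h
    refine (mul_le_mul_of_nonneg_right h (hS0 c)).trans (le_of_eq ?_)
    ring
  have e5 : ∑ c ∈ iv (n - (i + 1)) M3, S c ≤ 3 * ∑ c ∈ Wd (n - (i + 1)) M3, F c := by
    simp only [hS, sum_add_distrib]
    have g1 := shift_le (n - (i + 1)) M3 (-1) (by norm_num) (by norm_num) hF
    have g2 := shift_le (n - (i + 1)) M3 0 (by norm_num) (by norm_num) hF
    have g3 := shift_le (n - (i + 1)) M3 1 (by norm_num) (by norm_num) hF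
    linarith
  have hc : (0 : ℝ) ≤ 4 * (V * 2 ^ k) := by positivity
  have h6 := e2.trans (mul_le_mul_of_nonneg_left e5 hc)
  refine (mul_le_mul_of_nonneg_left h6
    (by positivity : (0 : ℝ) ≤ 16 * ((i + 1 - k : ℕ) : ℝ) ^ 2)).trans (le_of_eq ?_)
  ring

/-- the tail of the weights of the fine layers -/
theorem tail_sq (L n : ℕ) :
    ∑ r ∈ range n, (if L ≤ r then ((r : ℝ) + 1) ^ 2 * ((2 : ℝ) ^ (r + 1))⁻¹ else 0) ≤
      (((L : ℝ) + 2) ^ 2 + 2) / 2 ^ L := by
  rcases le_total n L with h | h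
  · rw [sum_eq_zero fun r hr => if_neg (by rw [mem_range] at hr; omega)]
    positivity
  · have e1 : ∑ r ∈ range n, (if L ≤ r then ((r : ℝ) + 1) ^ 2 * ((2 : ℝ) ^ (r + 1))⁻¹ else 0) +
        ∑ r ∈ range L, ((r : ℝ) + 1) ^ 2 * ((2 : ℝ) ^ (r + 1))⁻¹ =
        ∑ r ∈ range n, ((r : ℝ) + 1) ^ 2 * ((2 : ℝ) ^ (r + 1))⁻¹ := by
      rw [range_eq_Ico, range_eq_Ico, ← sum_Ico_consecutive _ (Nat.zero_le L) h,
        ← sum_Ico_consecutive _ (Nat.zero_le L) h]
      rw [sum_eq_zero (s := Ico 0 L) fun r hr => if_neg (by rw [mem_Ico] at hr; omega),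
        sum_congr (s₁ := Ico L n) rfl fun r hr => if_pos (by rw [mem_Ico] at hr; omega)]
      ring
    rw [H210.sum_sq_half, H210.sum_sq_half] at e1
    have e2 : (0 : ℝ) ≤ ((n : ℝ) ^ 2 + 4 * n + 6) * ((2 : ℝ) ^ n)⁻¹ := by positivity
    have e3 : (((L : ℝ) + 2) ^ 2 + 2) / 2 ^ L = ((L : ℝ) ^ 2 + 4 * L + 6) * ((2 : ℝ) ^ L)⁻¹ := by
      rw [div_eq_mul_inv]
      ring
    rw [e3]
    linarith

/-- **The core sum**: over the points of the root, the scales and the layers. -/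
theorem core (hw : ∀ y, 0 ≤ w y) (hV0 : 0 ≤ V)
    (hV : ∀ k ≤ n, ∀ y, al k y → ∑ y' ∈ iv k (ix k y), w y' ≤ V * 2 ^ k) (sh : ℤ)
    {Lc : ℕ → ℤ → ℝ} (hL0 : ∀ i q, 0 ≤ Lc i q) {Z : ℝ}
    (hZ : ∀ p, M3 - 1 ≤ ix n p → ix n p ≤ M3 + 1 → ∑ i ∈ range n, Lc i (ix (i + 1) p) ≤ Z)
    {b : ℕ → ℝ} (hb0 : ∀ i, 0 ≤ b i)
    (hb : ∀ i < n, ∀ p, M3 - 1 ≤ ix n p → ix n p ≤ M3 + 1 → Lc i (ix (i + 1) p) ≤ b i) (L : ℕ) :
    ∑ y ∈ iv n M3, ∑ k ∈ range (n + 1), ∑ i ∈ range n, (if al k y then w y else 0) *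
        (om sh k i y * 2 ^ (k - (i + 1)) *
          (Lc i (ix (i + 1) (st sh k y)) + Lc i (ix (i + 1) (st sh k y + 2 ^ k)))) ≤
      V * 2 ^ n * ((3456 + 24 * (L : ℝ) ^ 3) * Z +
        8 * ((((L : ℝ) + 2) ^ 2 + 2) / 2 ^ L) * ∑ i ∈ range n, b i) := by
  set PS : ℕ → ℝ := fun i => ∑ c ∈ Wd (n - (i + 1)) M3, Lc i c with hPS
  have hPS0 : ∀ i, 0 ≤ PS i := fun i => sum_nonneg fun c _ => hL0 i c
  have hPZ : ∑ i ∈ range n, 2 ^ (i + 1) * PS i ≤ 3 * 2 ^ n * Z := by
    have e1 : ∀ i ∈ range n, 2 ^ (i + 1) * PS i = ∑ p ∈ Wd n M3, Lc i (ix (i + 1) p) := by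
      intro i hi
      rw [mem_range] at hi
      exact Wd_cells (by omega) M3 _
    rw [sum_congr rfl e1, sum_comm]
    refine (sum_le_sum fun p hp => hZ p (mem_Wd.1 hp).1 (mem_Wd.1 hp).2).trans (le_of_eq ?_)
    rw [sum_const, nsmul_eq_mul, Wd_card]
  have hg : ∀ k y, 0 ≤ (if al k y then w y else 0) := fun k y => by
    split_ifs
    · exact hw y
    · exact le_rfl
  -- the function of a scale and a layer
  set f : ℕ → ℕ → ℝ := fun k i => ∑ y ∈ iv n M3, (if al k y then w y else 0) *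
        (om sh k i y * 2 ^ (k - (i + 1)) *
          (Lc i (ix (i + 1) (st sh k y)) + Lc i (ix (i + 1) (st sh k y + 2 ^ k)))) with hf
  have e0 : ∑ y ∈ iv n M3, ∑ k ∈ range (n + 1), ∑ i ∈ range n, (if al k y then w y else 0) *
        (om sh k i y * 2 ^ (k - (i + 1)) *
          (Lc i (ix (i + 1) (st sh k y)) + Lc i (ix (i + 1) (st sh k y + 2 ^ k)))) =
      ∑ k ∈ range (n + 1), ∑ i ∈ range n, f k i := by
    rw [sum_comm]
    exact sum_congr rfl fun k _ => sum_comm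
  rw [e0, H210.split_diag]
  -- fine layers
  have f1 : ∀ r ∈ range n, ∑ i ∈ range (n - r), f (i + 1 + r) i ≤
      (if r < L then 8 * V * ((r : ℝ) + 1) ^ 2 * (3 * 2 ^ n * Z) else 0) +
      (if L ≤ r then ((r : ℝ) + 1) ^ 2 * ((2 : ℝ) ^ (r + 1))⁻¹ else 0) *
        (8 * (V * 2 ^ n) * ∑ i ∈ range n, b i) := by
    intro r hr
    rw [mem_range] at hr
    by_cases h : r < L
    · rw [if_pos h, if_neg (by omega), zero_mul, add_zero]
      have g1 : ∀ i ∈ range (n - r), f (i + 1 + r) i ≤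
          8 * V * ((r : ℝ) + 1) ^ 2 * (2 ^ (i + 1) * PS i) := by
        intro i hi
        rw [mem_range] at hi
        have g2 := fine_ends (al := al) (M3 := M3) (by omega : i < i + 1 + r)
          (by omega : i + 1 + r ≤ n) hw hV0 (hV (i + 1 + r) (by omega)) sh (hL0 i)
        have g3 : f (i + 1 + r) i = 4 * (((r : ℝ) + 1) ^ 2 * ((2 : ℝ) ^ (r + 1))⁻¹) *
            ∑ y ∈ iv n M3, (if al (i + 1 + r) y then w y else 0) *
            (Lc i (ix (i + 1) (st sh (i + 1 + r) y)) +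
              Lc i (ix (i + 1) (st sh (i + 1 + r) y + 2 ^ (i + 1 + r)))) := by
          simp only [hf]
          rw [mul_sum]
          refine sum_congr rfl fun y _ => ?_
          rw [H210.om_diag]
          ring
        rw [g3]
        refine (mul_le_mul_of_nonneg_left g2 (by positivity)).trans (le_of_eq ?_)
        have e5 : (2 : ℝ) ^ (i + 1 + r) = 2 ^ (i + 1) * 2 ^ r := by rw [pow_add]
        have e6 : ((2 : ℝ) ^ (r + 1))⁻¹ * 2 ^ r = 1 / 2 := by
          rw [pow_succ, mul_inv]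
          have : (2 : ℝ) ^ r ≠ 0 := by positivity
          field_simp
        simp only [hPS]
        rw [e5]
        calc 4 * (((r : ℝ) + 1) ^ 2 * ((2 : ℝ) ^ (r + 1))⁻¹) * (4 * (V * (2 ^ (i + 1) * 2 ^ r)) *
              ∑ c ∈ Wd (n - (i + 1)) M3, Lc i c)
            = 16 * V * ((r : ℝ) + 1) ^ 2 * (((2 : ℝ) ^ (r + 1))⁻¹ * 2 ^ r) * (2 ^ (i + 1) *
              ∑ c ∈ Wd (n - (i + 1)) M3, Lc i c) := by ring
          _ = _ := by rw [e6]; ring
      refine (sum_le_sum g1).trans ?_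
      rw [← mul_sum]
      refine mul_le_mul_of_nonneg_left ?_ (by positivity)
      refine le_trans ?_ hPZ
      exact sum_le_sum_of_subset_of_nonneg (range_mono (Nat.sub_le n r)) fun i _ _ =>
        mul_nonneg (by positivity) (hPS0 i)
    · rw [if_neg h, if_pos (by omega), zero_add]
      have g1 : ∀ i ∈ range (n - r), f (i + 1 + r) i ≤
          (((r : ℝ) + 1) ^ 2 * ((2 : ℝ) ^ (r + 1))⁻¹) * (8 * (V * 2 ^ n)) * b i := by
        intro i hi
        rw [mem_range] at hi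
        have g3 : f (i + 1 + r) i = 4 * (((r : ℝ) + 1) ^ 2 * ((2 : ℝ) ^ (r + 1))⁻¹) *
            ∑ y ∈ iv n M3, (if al (i + 1 + r) y then w y else 0) *
            (Lc i (ix (i + 1) (st sh (i + 1 + r) y)) +
              Lc i (ix (i + 1) (st sh (i + 1 + r) y + 2 ^ (i + 1 + r)))) := by
          simp only [hf]
          rw [mul_sum]
          refine sum_congr rfl fun y _ => ?_
          rw [H210.om_diag]
          ring
        rw [g3]
        have g4 : ∑ y ∈ iv n M3, (if al (i + 1 + r) y then w y else 0) *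
            (Lc i (ix (i + 1) (st sh (i + 1 + r) y)) +
              Lc i (ix (i + 1) (st sh (i + 1 + r) y + 2 ^ (i + 1 + r)))) ≤
            (V * 2 ^ n) * (2 * b i) := by
          have hkn : i + 1 + r ≤ n := by omega
          refine (sum_le_sum fun y hy => mul_le_mul_of_nonneg_left (?_ : _ ≤ 2 * b i)
            (hg _ y)).trans ?_
          · obtain ⟨t1, t2⟩ := st_bd sh (i + 1 + r) y
            have hp : (0 : ℤ) < 2 ^ (i + 1 + r) := by positivity
            obtain ⟨a1, a2⟩ := H876.near_root hkn (p := st sh (i + 1 + r) y) (y := y)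
              (by linarith) (by linarith)
            obtain ⟨b1, b2⟩ := H876.near_root hkn (p := st sh (i + 1 + r) y + 2 ^ (i + 1 + r))
              (y := y) (by linarith) (by linarith)
            rw [mem_iv.1 hy] at a1 a2 b1 b2
            have q1 := hb i (by omega) _ a1 a2
            have q2 := hb i (by omega) _ b1 b2
            linarith
          · rw [← sum_mul]
            exact mul_le_mul_of_nonneg_right (root_le hkn hw hV0 (hV _ hkn) M3)
              (mul_nonneg (by norm_num) (hb0 i))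
        refine (mul_le_mul_of_nonneg_left g4 (by positivity)).trans (le_of_eq ?_)
        ring
      refine (sum_le_sum g1).trans ?_
      rw [← mul_sum]
      have g5 : ∑ i ∈ range (n - r), b i ≤ ∑ i ∈ range n, b i :=
        sum_le_sum_of_subset_of_nonneg (range_mono (Nat.sub_le n r)) fun i _ _ => hb0 i
      refine (mul_le_mul_of_nonneg_left g5 (by positivity)).trans (le_of_eq ?_)
      ring
  -- coarse layers
  have f2 : ∑ d ∈ range n, ∑ k ∈ range (n - d), f k (k + d) ≤ V * (1152 * (3 * 2 ^ n * Z)) := by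
    have g1 : ∀ d ∈ range n, ∑ k ∈ range (n - d), f k (k + d) ≤
        192 * V * (((d : ℝ) + 1) ^ 2 * ((2 : ℝ) ^ (d + 1))⁻¹) * (3 * 2 ^ n * Z) := by
      intro d hd
      rw [mem_range] at hd
      have g2 : ∀ k ∈ range (n - d), f k (k + d) ≤
          192 * V * (((d : ℝ) + 1) ^ 2 * ((2 : ℝ) ^ (d + 1))⁻¹) *
            (2 ^ (k + d + 1) * PS (k + d)) := by
        intro k hk
        rw [mem_range] at hk
        have g3 := coarse_ends (al := al) (M3 := M3) (by omega : k ≤ k + d)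
          (by omega : k + d < n) hw hV0 (hV k (by omega)) sh (hL0 (k + d))
        have g4 : f k (k + d) = ∑ y ∈ iv n M3, (if al k y then w y else 0) * (om sh k (k + d) y *
            (Lc (k + d) (ix (k + d + 1) (st sh k y)) +
              Lc (k + d) (ix (k + d + 1) (st sh k y + 2 ^ k)))) := by
          simp only [hf]
          have e1 : k - (k + d + 1) = 0 := by omega
          rw [e1, pow_zero]
          simp only [mul_one]
        rw [g4]
        refine g3.trans (le_of_eq ?_)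
        have e2 : k + d + 1 - k = d + 1 := by omega
        have e5 : (2 : ℝ) ^ (k + d + 1) = 2 ^ (d + 1) * 2 ^ k := by
          rw [← pow_add]
          congr 1
          omega
        simp only [hPS]
        rw [e2, e5]
        push_cast
        have e6 : ((2 : ℝ) ^ (d + 1))⁻¹ * 2 ^ (d + 1) = 1 :=
          inv_mul_cancel₀ (by positivity)
        calc 192 * ((d : ℝ) + 1) ^ 2 * (V * 2 ^ k) *
              ∑ c ∈ Wd (n - (k + d + 1)) M3, Lc (k + d) c
            = 192 * V * ((d : ℝ) + 1) ^ 2 * 1 * (2 ^ k *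
              ∑ c ∈ Wd (n - (k + d + 1)) M3, Lc (k + d) c) := by ring
          _ = _ := by rw [← e6]; ring
      refine (sum_le_sum g2).trans ?_
      rw [← mul_sum]
      refine mul_le_mul_of_nonneg_left ?_ (by positivity)
      refine le_trans ?_ hPZ
      have e5 : ∑ k ∈ range (n - d), (2 : ℝ) ^ (k + d + 1) * PS (k + d) =
          ∑ i ∈ Ico d n, 2 ^ (i + 1) * PS i := by
        rw [range_eq_Ico, Finset.sum_Ico_add' (fun i => (2 : ℝ) ^ (i + 1) * PS i) 0 (n - d) d]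
        congr 1
        rw [zero_add, Nat.sub_add_cancel hd.le]
      rw [e5]
      exact sum_le_sum_of_subset_of_nonneg (fun x hx => by
        rw [mem_Ico] at hx; exact mem_range.2 hx.2) fun i _ _ =>
          mul_nonneg (by positivity) (hPS0 i)
    refine (sum_le_sum g1).trans ?_
    rw [← sum_mul, ← mul_sum, H210.sum_sq_half]
    have hZ0 : 0 ≤ 3 * 2 ^ n * Z := le_trans (sum_nonneg fun i _ =>
      mul_nonneg (by positivity) (hPS0 i)) hPZ
    have h1 : 6 - ((n : ℝ) ^ 2 + 4 * n + 6) * ((2 : ℝ) ^ n)⁻¹ ≤ 6 := by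
      have : (0 : ℝ) ≤ ((n : ℝ) ^ 2 + 4 * n + 6) * ((2 : ℝ) ^ n)⁻¹ := by positivity
      linarith
    have h2 := mul_le_mul_of_nonneg_left h1 (by positivity : (0 : ℝ) ≤ 192 * V)
    refine (mul_le_mul_of_nonneg_right h2 hZ0).trans (le_of_eq ?_)
    ring
  have hZ0 : 0 ≤ 3 * 2 ^ n * Z := le_trans (sum_nonneg fun i _ =>
      mul_nonneg (by positivity) (hPS0 i)) hPZ
  have f3 : ∑ r ∈ range n, (if r < L then 8 * V * ((r : ℝ) + 1) ^ 2 * (3 * 2 ^ n * Z) else 0) ≤
      8 * V * (L : ℝ) ^ 3 * (3 * 2 ^ n * Z) := by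
    rw [← sum_filter]
    have h2 : (range n).filter (fun d => d < L) ⊆ range L := by
      intro x hx
      rw [mem_filter] at hx
      exact mem_range.2 hx.2
    refine (sum_le_sum_of_subset_of_nonneg h2 fun _ _ _ => by positivity).trans ?_
    rw [← sum_mul, ← mul_sum]
    refine mul_le_mul_of_nonneg_right ?_ hZ0
    exact mul_le_mul_of_nonneg_left (H210.sum_sq_le L) (by positivity)
  have f4 : ∑ r ∈ range n, (if L ≤ r then ((r : ℝ) + 1) ^ 2 * ((2 : ℝ) ^ (r + 1))⁻¹ else 0) *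
        (8 * (V * 2 ^ n) * ∑ i ∈ range n, b i) ≤
      (((L : ℝ) + 2) ^ 2 + 2) / 2 ^ L * (8 * (V * 2 ^ n) * ∑ i ∈ range n, b i) := by
    rw [← sum_mul]
    exact mul_le_mul_of_nonneg_right (tail_sq L n)
      (mul_nonneg (by positivity) (sum_nonneg fun i _ => hb0 i))
  have f5 := sum_le_sum f1
  rw [sum_add_distrib] at f5
  refine (add_le_add (f5.trans (add_le_add f3 f4)) f2).trans (le_of_eq ?_)
  ring

end Core

/-! ### The slot, one fixed vector -/

variable {ι : Type*} [Fintype ι]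

variable {Mx : ℕ → ℤ → Matrix ι ι ℝ} {o x1 T M3 : ℤ} {n : ℕ} {s : ℕ → ℤ → ℤ → ℝ}

/-- the square of a layer, with its sign, as a function of the cell -/
def lc (Mx : ℕ → ℤ → Matrix ι ι ℝ) (o x1 : ℤ) (s : ℕ → ℤ → ℤ → ℝ) (f : ι → ℝ) (i : ℕ)
    (x0 q : ℤ) : ℝ :=
  s (i + 1) (ix (i + 1) x0) q ^ 2 *
    nsq (Mx (i + 1) (o - 2 - ix (i + 1) x1 - q - ix (i + 1) x0) *ᵥ f)

theorem lc_nonneg (f : ι → ℝ) (i : ℕ) (x0 q : ℤ) : 0 ≤ lc Mx o x1 s f i x0 q :=
  mul_nonneg (sq_nonneg _) (nsq_nonneg _)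

theorem lc_eq (f : ι → ℝ) (i : ℕ) (x0 p : ℤ) :
    nsq (Lm Mx o x1 s (i + 1) x0 p *ᵥ f) = lc Mx o x1 s f i x0 (ix (i + 1) p) := by
  unfold H841.Lm lc H922.ck
  rw [smul_mulVec, H841.nsq_smul, mul_pow, mul_pow, sq (hs (i + 1) x0), sq (hs (i + 1) p),
    PL.hs_mul_self, PL.hs_mul_self]
  ring

/-- **The deviation of the slot on the shifted grid, with the signs of the layers.** -/
theorem dev_leS (n : ℕ) (sh : ℤ) {k : ℕ} (hk : k ≤ n) (x0 y : ℤ) (f : ι → ℝ) :
    nsq ((Rs Mx o x1 s n sh k x0 (ix k (y - sh)) - Rm Mx o x1 s n k x0 y) *ᵥ f) ≤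
      ∑ i ∈ range n, om sh k i y * (lc Mx o x1 s f i x0 (ix (i + 1) (st sh k y)) +
        lc Mx o x1 s f i x0 (ix (i + 1) (st sh k y + 2 ^ k))) := by
  set M' : ℕ → ℤ → Matrix ι ι ℝ := fun i m =>
    s i (ix i x0) (o - 2 - ix i x1 - m - ix i x0) • Mx i m with hM'
  have hL : ∀ i p, Lm M' o x1 (fun _ _ _ => 1) i x0 p = Lm Mx o x1 s i x0 p := by
    intro i p
    have e : o - 2 - ix i x1 - (ck o x1 p i - ix i x0) - ix i x0 = ix i p := by
      unfold H922.ck
      ring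
    unfold H841.Lm
    simp only [hM']
    rw [e, smul_smul]
    congr 1
    ring
  have hR : ∀ j p, Rm M' o x1 (fun _ _ _ => 1) n j x0 p = Rm Mx o x1 s n j x0 p := by
    intro j p
    unfold H841.Rm
    exact sum_congr rfl fun i _ => hL _ _
  have hRs : ∀ m, Rs M' o x1 (fun _ _ _ => 1) n sh k x0 m = Rs Mx o x1 s n sh k x0 m := by
    intro m
    unfold H841.Rs
    simp only [hR]
  have h := dev_le (Mx := M') (o := o) (x1 := x1) (s := fun _ _ _ => 1)
    (fun _ _ _ => by norm_num) n sh hk x0 y f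
  rw [hR, hRs] at h
  refine h.trans (le_of_eq ?_)
  have hN : ∀ i p, Nn M' o x1 (i + 1) x0 p f = lc Mx o x1 s f i x0 (ix (i + 1) p) := by
    intro i p
    have e : o - 2 - ix (i + 1) x1 - (ck o x1 p (i + 1) - ix (i + 1) x0) - ix (i + 1) x0 =
        ix (i + 1) p := by
      unfold H922.ck
      ring
    unfold H841.Nn lc
    simp only [hM']
    rw [e, smul_mulVec, H841.nsq_smul]
    unfold H922.ck
    rfl
  simp only [hN]

/-- the sum over `x₀` of a layer -/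
theorem wt_lc {W : ℤ → ℝ} {e : ℝ} {k : ℕ} (hW0 : ∀ x, 0 ≤ W x)
    (hW : ∀ j, ∑ x ∈ iv k j, W x ≤ e * 2 ^ k) {i : ℕ} (hi : i < n) (f : ι → ℝ) (q : ℤ) :
    ∑ x0 ∈ iv n T, W x0 * lc Mx o x1 s f i x0 q ≤
      e * 2 ^ (k - (i + 1)) * ∑ x0 ∈ iv n T, lc Mx o x1 s f i x0 q :=
  H841.wt_fun hW0 hW (i := i + 1) hi (f := fun x0 => lc Mx o x1 s f i x0 q)
    (fun x0 => lc_nonneg f i x0 q) fun x z hxz => by
      unfold lc
      rw [hxz]

/-- **(S1) for one fixed vector, summed over the points of the root with small live fibres.** -/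
theorem S1f (hs1 : ∀ k a b, |s k a b| ≤ 1) (ho : o = 1 ∨ o = -1) {f : ι → ℝ} {E Qf : ℝ}
    (hE : ∀ p, M3 - 1 ≤ ix n p → ix n p ≤ M3 + 1 →
      ∑ x0 ∈ iv n T, nsq (Rm Mx o x1 s n 0 x0 p *ᵥ f) ≤ 2 ^ n * E)
    (hX : ∑ i ∈ range n, En Mx n T x1 M3 (i + 1) f ≤ 2 ^ n * Qf)
    {W : ℕ → ℤ → ℤ → ℝ} {e : ℝ} (he : 0 ≤ e) (hW0 : ∀ k x0 y, 0 ≤ W k x0 y)
    (hW : ∀ k ≤ n, ∀ j y, ∑ x0 ∈ iv k j, W k x0 y ≤ e * 2 ^ k)
    {al : ℕ → ℤ → Prop} {w : ℤ → ℝ} {V : ℝ} (hw : ∀ y, 0 ≤ w y)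
    (hV0 : 0 ≤ V) (hV : ∀ k ≤ n, ∀ y, al k y → ∑ y' ∈ iv k (ix k y), w y' ≤ V * 2 ^ k)
    (hal : ∀ y ∈ iv n M3, ∀ k ≤ n, ¬ al k y → ∀ x0, W k x0 y = 0) (L : ℕ) (sh : ℤ) :
    ∑ y ∈ iv n M3, ∑ k ∈ range (n + 1), ∑ x0 ∈ iv n T, W k x0 y * w y *
        nsq ((Rs Mx o x1 s n sh k x0 (ix k (y - sh)) - Rm Mx o x1 s n k x0 y) *ᵥ f) ≤
      e * V * 4 ^ n * ((3456 + 24 * (L : ℝ) ^ 3) * E +
        8 * ((((L : ℝ) + 2) ^ 2 + 2) / 2 ^ L) * Qf) := by
  set Lc : ℕ → ℤ → ℝ := fun i q => ∑ x0 ∈ iv n T, lc Mx o x1 s f i x0 q with hLc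
  have hL0 : ∀ i q, 0 ≤ Lc i q := fun i q => sum_nonneg fun x0 _ => lc_nonneg f i x0 q
  have hZ : ∀ p, M3 - 1 ≤ ix n p → ix n p ≤ M3 + 1 →
      ∑ i ∈ range n, Lc i (ix (i + 1) p) ≤ 2 ^ n * E := by
    intro p h1 h2
    have h := H185.sum_Rm (Mx := Mx) (o := o) (x1 := x1) (s := s) (Nat.zero_le n) T p f
    rw [← range_eq_Ico] at h
    refine le_trans (le_of_eq ?_) (hE p h1 h2)
    rw [h]
    refine sum_congr rfl fun i _ => ?_
    exact sum_congr rfl fun x0 _ => (lc_eq f i x0 p).symm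
  have hb : ∀ i < n, ∀ p, M3 - 1 ≤ ix n p → ix n p ≤ M3 + 1 →
      Lc i (ix (i + 1) p) ≤ En Mx n T x1 M3 (i + 1) f := by
    intro i hi p h1 h2
    have h := wt_Nn (Mx := Mx) (x1 := x1) (T := T) (M3 := M3) ho (W := fun _ => 1) (e := 1)
      (k := 0) (fun _ => zero_le_one) (fun j => by simp) (i := i + 1) hi (p := p) h1 h2 f
    rw [Nat.zero_sub, pow_zero, one_mul, one_mul] at h
    refine le_trans ?_ h
    refine sum_le_sum fun x0 _ => ?_
    rw [one_mul, ← lc_eq]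
    exact Lm_le hs1 _ _ _ _
  have hc := core (M3 := M3) hw hV0 hV sh hL0 hZ (b := fun i => En Mx n T x1 M3 (i + 1) f)
    (fun i => En_nonneg _ _) hb L
  have hsum : ∑ i ∈ range n, En Mx n T x1 M3 (i + 1) f ≤ 2 ^ n * Qf := hX
  have e1 : ∀ y ∈ iv n M3, ∀ k ∈ range (n + 1), ∑ x0 ∈ iv n T, W k x0 y * w y *
        nsq ((Rs Mx o x1 s n sh k x0 (ix k (y - sh)) - Rm Mx o x1 s n k x0 y) *ᵥ f) ≤
      e * ∑ i ∈ range n, (if al k y then w y else 0) *
        (om sh k i y * 2 ^ (k - (i + 1)) *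
          (Lc i (ix (i + 1) (st sh k y)) + Lc i (ix (i + 1) (st sh k y + 2 ^ k)))) := by
    intro y hy k hk
    rw [mem_range] at hk
    by_cases ha : al k y
    · have g1 : ∀ x0 ∈ iv n T, W k x0 y * w y *
          nsq ((Rs Mx o x1 s n sh k x0 (ix k (y - sh)) - Rm Mx o x1 s n k x0 y) *ᵥ f) ≤
          ∑ i ∈ range n, w y * (om sh k i y *
            (W k x0 y * lc Mx o x1 s f i x0 (ix (i + 1) (st sh k y)) +
              W k x0 y * lc Mx o x1 s f i x0 (ix (i + 1) (st sh k y + 2 ^ k)))) := by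
        intro x0 _
        refine (mul_le_mul_of_nonneg_left (dev_leS n sh (by omega) x0 y f)
          (mul_nonneg (hW0 k x0 y) (hw y))).trans (le_of_eq ?_)
        rw [mul_sum]
        exact sum_congr rfl fun i _ => by ring
      refine (sum_le_sum g1).trans ?_
      rw [sum_comm, mul_sum]
      refine sum_le_sum fun i hi => ?_
      rw [mem_range] at hi
      rw [if_pos ha, ← mul_sum, ← mul_sum, sum_add_distrib]
      have c1 := wt_lc (Mx := Mx) (o := o) (x1 := x1) (s := s) (T := T) (fun x => hW0 k x y)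
        (fun j => hW k (by omega) j y) hi f (ix (i + 1) (st sh k y))
      have c2 := wt_lc (Mx := Mx) (o := o) (x1 := x1) (s := s) (T := T) (fun x => hW0 k x y)
        (fun j => hW k (by omega) j y) hi f (ix (i + 1) (st sh k y + 2 ^ k))
      refine (mul_le_mul_of_nonneg_left (mul_le_mul_of_nonneg_left (add_le_add c1 c2)
        (om_nonneg sh k i y)) (hw y)).trans (le_of_eq ?_)
      simp only [hLc]
      ring
    · rw [sum_eq_zero fun x0 _ => by rw [hal y hy k (by omega) ha x0, zero_mul, zero_mul]]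
      refine mul_nonneg he (sum_nonneg fun i _ => ?_)
      rw [if_neg ha, zero_mul]
  refine (sum_le_sum fun y hy => sum_le_sum fun k hk => e1 y hy k hk).trans ?_
  have e2 : ∑ y ∈ iv n M3, ∑ k ∈ range (n + 1), e * ∑ i ∈ range n,
        (if al k y then w y else 0) * (om sh k i y * 2 ^ (k - (i + 1)) *
          (Lc i (ix (i + 1) (st sh k y)) + Lc i (ix (i + 1) (st sh k y + 2 ^ k)))) =
      e * ∑ y ∈ iv n M3, ∑ k ∈ range (n + 1), ∑ i ∈ range n,
        (if al k y then w y else 0) * (om sh k i y * 2 ^ (k - (i + 1)) *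
          (Lc i (ix (i + 1) (st sh k y)) + Lc i (ix (i + 1) (st sh k y + 2 ^ k)))) := by
    rw [mul_sum]
    exact sum_congr rfl fun y _ => (mul_sum _ _ _).symm
  rw [e2]
  refine (mul_le_mul_of_nonneg_left hc he).trans ?_
  have h5 : (0 : ℝ) ≤ 8 * ((((L : ℝ) + 2) ^ 2 + 2) / 2 ^ L) := by positivity
  have h6 := mul_le_mul_of_nonneg_left hsum h5
  have h7 : V * 2 ^ n * ((3456 + 24 * (L : ℝ) ^ 3) * (2 ^ n * E) +
        8 * ((((L : ℝ) + 2) ^ 2 + 2) / 2 ^ L) * ∑ i ∈ range n, En Mx n T x1 M3 (i + 1) f) ≤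
      V * 2 ^ n * ((3456 + 24 * (L : ℝ) ^ 3) * (2 ^ n * E) +
        8 * ((((L : ℝ) + 2) ^ 2 + 2) / 2 ^ L) * (2 ^ n * Qf)) :=
    mul_le_mul_of_nonneg_left (by linarith) (by positivity)
  refine (mul_le_mul_of_nonneg_left h7 he).trans (le_of_eq ?_)
  have e4 : (4 : ℝ) ^ n = 2 ^ n * 2 ^ n := by rw [← mul_pow]; norm_num
  rw [e4]
  ring

end

end Vale.Agent.P141.H795.SE
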