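import Vale.Agent.P141.H677.SkelTF

/-!
# P141, line (A), flow part: the term of scale `0`

The families are killed at the time `0` (`kF`), so the term of scale `0` vanishes.
-/

namespace Vale.Agent.P141.H795

open Finset Matrix
open Vale.Agent.P141.PL
open Vale.Agent.P141.H677.Sk

noncomputable section

open scoped Classical

variable {ι : Type} [Fintype ι] [DecidableEq ι]

theorem GS_zero_time (Al : ℕ → Pt → Prop) (o : ℤ) (K : ℕ) (M : Pt) (sg : ℕ → Pt → ℝ) (l : ℝ)
    (u : ℤ → ℤ → ι → ℝ) (A : FamA) (b C : FamV ι) (x0 : ℤ) (a b' : ℕ)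
    (h : (∀ z y, A x0 b' z y = 0) ∨ (∀ x y, b x0 b' x y = 0) ∨ ∀ z x, C x0 b' z x = 0) :
    GS Al o K M sg l u A b C x0 a b' = fun _ => 0 := by
  funext y
  unfold GS H677.GA
  rcases h with h | h | h
  · rw [h, zero_mul]
  · rw [h, zero_dotProduct, mul_zero]
  · rw [h, mulVec_zero, dotProduct_zero, mul_zero]

/-- **The term of scale `0` vanishes** when one of the families is zero at the time `0`. -/
theorem P0_zero (Al : ℕ → Pt → Prop) (o : ℤ) (K : ℕ) (M : Pt) (sg : ℕ → Pt → ℝ) (l : ℝ)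
    (u : ℤ → ℤ → ι → ℝ) (A : FamA) (b C : FamV ι)
    (h : ∀ x0, (∀ z y, A x0 0 z y = 0) ∨ (∀ x y, b x0 0 x y = 0) ∨ ∀ z x, C x0 0 z x = 0) :
    P0 ι Al o K M sg l u A b C = 0 := by
  unfold P0
  refine sum_eq_zero fun t _ => sum_eq_zero fun x0 _ => ?_
  rw [GS_zero_time Al o K M sg l u A b C x0 0 0 (h x0)]
  unfold H352.In
  simp

end

end Vale.Agent.P141.H795
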