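import Vale.Agent.P141.PL.Defs

/-!
# P141, line (A): spline kernels and shifted dyadic grids

`KK k` is the kernel `b_k^{*4} * (-δ_{-L} + 8 δ_{-2L} - δ_{-3L}) / 6`, `L = 2 ^ k`, `b_k` = the
uniform measure on `[0, L)`.  The difference of two consecutive kernels is a four-fold product of
Haar functions, hence an exact average, over all shifts of the dyadic grid of scale `k + 1`, of
triple Haar node forms on the planes `ix k Y - j`, `j = 0, 1, 2`.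
-/

namespace Vale.Agent.P141.H795

open Finset
open Vale.Agent.P141.PL

noncomputable section

/-! ### The kernels in the group algebra -/

/-- the group algebra of `ℤ` -/
abbrev GA : Type := AddMonoidAlgebra ℝ ℤ

/-- the point mass at `z` -/
def tt (z : ℤ) : GA := AddMonoidAlgebra.single z 1

theorem tt_mul (a b : ℤ) : tt a * tt b = tt (a + b) := by
  unfold tt
  rw [AddMonoidAlgebra.single_mul_single, one_mul]

theorem tt_zero : tt 0 = 1 := rfl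

theorem coeff_tt_mul (v z : ℤ) (P : GA) : (tt v * P).coeff z = P.coeff (z - v) := by
  unfold tt
  rw [AddMonoidAlgebra.coeff_single_mul_apply, one_mul]
  congr 1
  ring

/-- the uniform measure on `[0, 2 ^ k)` -/
def bb (k : ℕ) : GA := ((2 : ℝ) ^ k)⁻¹ • ∑ i ∈ range (2 ^ k), tt (i : ℤ)

/-- the Haar function of length `2 ^ (k + 1)` -/
def hh (k : ℕ) : GA := (2 : ℝ)⁻¹ • (bb k * (1 - tt (2 ^ k)))

/-- the shift by `- 2 ^ k` -/
def yi (k : ℕ) : GA := tt (-2 ^ k)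

/-- the mask -/
def mk (k : ℕ) : GA := (6 : ℝ)⁻¹ • (-(yi k) + 8 * yi k ^ 2 - yi k ^ 3)

/-- the kernel -/
def kk (k : ℕ) : GA := bb k ^ 4 * mk k

theorem y_yi (k : ℕ) : tt (2 ^ k) * yi k = 1 := by
  unfold yi
  rw [tt_mul, add_neg_cancel, tt_zero]

theorem y_succ (k : ℕ) : tt (2 ^ (k + 1)) = tt (2 ^ k) ^ 2 := by
  rw [sq, tt_mul]
  congr 1
  ring

theorem yi_succ (k : ℕ) : yi (k + 1) = yi k ^ 2 := by
  unfold yi
  rw [sq, tt_mul]
  congr 1
  ring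

theorem bb_succ (k : ℕ) : bb (k + 1) = (2 : ℝ)⁻¹ • (bb k * (1 + tt (2 ^ k))) := by
  unfold bb
  have e0 : (2 : ℕ) ^ (k + 1) = 2 ^ k + 2 ^ k := by rw [pow_succ]; ring
  rw [e0, sum_range_add, smul_mul_assoc, mul_add, mul_one, sum_mul, smul_smul]
  have e1 : ((2 : ℝ) ^ (k + 1))⁻¹ = 2⁻¹ * ((2 : ℝ) ^ k)⁻¹ := by
    rw [pow_succ, mul_inv]; ring
  rw [e1]
  congr 2
  refine sum_congr rfl fun i _ => ?_
  rw [tt_mul]
  congr 1
  push_cast
  ring

/-- **The refinement identity.** -/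
theorem kk_sub (k : ℕ) : kk k - kk (k + 1) =
    hh k ^ 4 * ((6 : ℝ)⁻¹ • (yi k ^ 6 + 8 * yi k ^ 5 + 24 * yi k ^ 4 + 8 * yi k ^ 3 +
      yi k ^ 2)) := by
  have hc : ∀ (r : ℝ) (P : GA), r • P = algebraMap ℝ GA r * P := fun r P => Algebra.smul_def r P
  unfold kk mk hh
  rw [bb_succ, yi_succ]
  simp only [hc]
  set h2 : GA := algebraMap ℝ GA (2 : ℝ)⁻¹ with h2d
  set h6 : GA := algebraMap ℝ GA (6 : ℝ)⁻¹ with h6d
  have e2 : 16 * h2 ^ 4 = (1 : GA) := by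
    rw [h2d, ← map_pow]
    have : (16 : GA) = algebraMap ℝ GA 16 := by rw [map_ofNat]
    rw [this, ← map_mul]
    norm_num
  set y : GA := tt (2 ^ k) with yd
  set w : GA := yi k with wd
  have hy : y * w = 1 := y_yi k
  generalize bb k = b
  clear_value h2 h6 y w
  have g1 : -w + 8 * w ^ 2 - w ^ 3 = w ^ 6 * (-y ^ 5 + 8 * y ^ 4 - y ^ 3) := by
    linear_combination (-w * (1 + y * w + y ^ 2 * w ^ 2 + y ^ 3 * w ^ 3 + y ^ 4 * w ^ 4) * (-1) +
      8 * w ^ 2 * (1 + y * w + y ^ 2 * w ^ 2 + y ^ 3 * w ^ 3) * (-1) -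
      w ^ 3 * (1 + y * w + y ^ 2 * w ^ 2) * (-1)) * hy
  have g2 : -(w ^ 2) + 8 * (w ^ 2) ^ 2 - (w ^ 2) ^ 3 = w ^ 6 * (-y ^ 4 + 8 * y ^ 2 - 1) := by
    linear_combination (-w ^ 2 * (1 + y * w + y ^ 2 * w ^ 2 + y ^ 3 * w ^ 3) * (-1) +
      8 * w ^ 4 * (1 + y * w) * (-1)) * hy
  have g3 : w ^ 6 + 8 * w ^ 5 + 24 * w ^ 4 + 8 * w ^ 3 + w ^ 2 =
      w ^ 6 * (1 + 8 * y + 24 * y ^ 2 + 8 * y ^ 3 + y ^ 4) := by
    linear_combination (8 * w ^ 5 * (-1) + 24 * w ^ 4 * (1 + y * w) * (-1) +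
      8 * w ^ 3 * (1 + y * w + y ^ 2 * w ^ 2) * (-1) +
      w ^ 2 * (1 + y * w + y ^ 2 * w ^ 2 + y ^ 3 * w ^ 3) * (-1)) * hy
  rw [g1, g2, g3]
  linear_combination (-(h6 * b ^ 4 * w ^ 6 * (-y ^ 5 + 8 * y ^ 4 - y ^ 3))) * e2

/-! ### Coefficients -/

/-- the sign on `[0, 2 ^ (k + 1))` -/
def sgn (k : ℕ) (v : ℕ) : ℝ := if v < 2 ^ k then 1 else -1

/-- the weight -/
def W (q : ℤ) : ℝ :=
  if q = 0 then -1 / 6 else if q = 1 then -7 / 6 else if q = 2 then -16 / 6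
  else if q = 3 then 16 / 6 else if q = 4 then 7 / 6 else if q = 5 then 1 / 6 else 0

theorem hh_eq (k : ℕ) :
    hh k = ((2 : ℝ) ^ (k + 1))⁻¹ • ∑ v ∈ range (2 ^ (k + 1)), sgn k v • tt (v : ℤ) := by
  unfold hh bb
  have e0 : (2 : ℕ) ^ (k + 1) = 2 ^ k + 2 ^ k := by rw [pow_succ]; ring
  have e1 : ((2 : ℝ) ^ (k + 1))⁻¹ = 2⁻¹ * ((2 : ℝ) ^ k)⁻¹ := by
    rw [pow_succ, mul_inv]; ring
  rw [e0, e1, sum_range_add, smul_mul_assoc, mul_sub, mul_one, sum_mul, smul_smul]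
  congr 1
  rw [sub_eq_add_neg, ← sum_neg_distrib]
  congr 1
  · refine sum_congr rfl fun i hi => ?_
    rw [mem_range] at hi
    unfold sgn
    rw [if_pos hi, one_smul]
  · refine sum_congr rfl fun i _ => ?_
    unfold sgn
    rw [if_neg (by omega), tt_mul, neg_one_smul]
    congr 2
    push_cast
    ring

theorem coeff_bb (k : ℕ) (z : ℤ) :
    (bb k).coeff z = if ix k z = 0 then ((2 : ℝ) ^ k)⁻¹ else 0 := by
  unfold bb
  rw [AddMonoidAlgebra.coeff_smul_apply, AddMonoidAlgebra.coeff_sum, Finsupp.finsetSum_apply]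
  have h1 : ∀ i : ℕ, (tt (i : ℤ)).coeff z = if (i : ℤ) = z then (1 : ℝ) else 0 := by
    intro i
    unfold tt
    rw [AddMonoidAlgebra.coeff_single, Finsupp.single_apply]
  simp only [h1]
  have h2 : ix k z = 0 ↔ (0 ≤ z ∧ z < 2 ^ k) := by
    rw [← mem_iv]
    unfold iv
    rw [mem_Ico]
    simp
  by_cases h : ix k z = 0
  · rw [if_pos h]
    obtain ⟨h3, h4⟩ := h2.mp h
    obtain ⟨j, rfl⟩ := Int.eq_ofNat_of_zero_le h3
    have h5 : j ∈ range (2 ^ k) := by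
      rw [mem_range]
      exact_mod_cast h4
    rw [sum_eq_single_of_mem j h5]
    · simp
    · intro i _ hij
      rw [if_neg]
      exact_mod_cast hij
  · rw [if_neg h, sum_eq_zero, smul_zero]
    intro i hi
    rw [if_neg]
    rintro rfl
    rw [mem_range] at hi
    exact h (h2.mpr ⟨by positivity, by exact_mod_cast hi⟩)

theorem ix_add_mul (k : ℕ) (z j : ℤ) : ix k (z + j * 2 ^ k) = ix k z + j := by
  unfold ix
  rw [Int.add_mul_ediv_right _ _ (by positivity)]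

theorem coeff_bb_yi (k j : ℕ) (z : ℤ) :
    (yi k ^ j * bb k).coeff z = if ix k z = -(j : ℤ) then ((2 : ℝ) ^ k)⁻¹ else 0 := by
  have h1 : yi k ^ j = tt (-(j : ℤ) * 2 ^ k) := by
    induction j with
    | zero => simp [tt_zero]
    | succ j ih =>
      rw [pow_succ, ih]
      unfold yi
      rw [tt_mul]
      congr 1
      push_cast
      ring
  rw [h1, coeff_tt_mul, coeff_bb]
  have h2 : z - -(j : ℤ) * 2 ^ k = z + (j : ℤ) * 2 ^ k := by ring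
  rw [h2, ix_add_mul]
  by_cases h : ix k z = -(j : ℤ)
  · rw [if_pos h, if_pos (by omega)]
  · rw [if_neg h, if_neg (by omega)]

/-- the profile: one Haar function times the mask -/
def pr (k : ℕ) : GA :=
  hh k * ((6 : ℝ)⁻¹ • (yi k ^ 6 + 8 * yi k ^ 5 + 24 * yi k ^ 4 + 8 * yi k ^ 3 + yi k ^ 2))

theorem pr_eq (k : ℕ) : pr k = (12 : ℝ)⁻¹ • (yi k ^ 6 * bb k + (7 : ℝ) • (yi k ^ 5 * bb k) +
    (16 : ℝ) • (yi k ^ 4 * bb k) - (16 : ℝ) • (yi k ^ 3 * bb k) - (7 : ℝ) • (yi k ^ 2 * bb k) -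
      yi k ^ 1 * bb k) := by
  have hc : ∀ (r : ℝ) (P : GA), r • P = algebraMap ℝ GA r * P := fun r P => Algebra.smul_def r P
  unfold pr hh
  have e12 : (12 : ℝ)⁻¹ = (2 : ℝ)⁻¹ * (6 : ℝ)⁻¹ := by norm_num
  rw [e12]
  simp only [hc, map_mul]
  set h2 : GA := algebraMap ℝ GA (2 : ℝ)⁻¹ with h2d
  set h6 : GA := algebraMap ℝ GA (6 : ℝ)⁻¹ with h6d
  have e7 : algebraMap ℝ GA (7 : ℝ) = 7 := by rw [map_ofNat]
  have e16 : algebraMap ℝ GA (16 : ℝ) = 16 := by rw [map_ofNat]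
  rw [e7, e16]
  set y : GA := tt (2 ^ k) with yd
  set w : GA := yi k with wd
  have hy : y * w = 1 := y_yi k
  generalize bb k = b
  clear_value h2 h6 y w
  linear_combination (-h2 * h6 * b * (w ^ 5 + 8 * w ^ 4 + 24 * w ^ 3 + 8 * w ^ 2 + w)) * hy

theorem coeff_pr (k : ℕ) (z : ℤ) :
    (pr k).coeff z = -(((2 : ℝ) ^ (k + 1))⁻¹ * W (ix k z + 6)) := by
  rw [pr_eq]
  simp only [AddMonoidAlgebra.coeff_smul_apply, AddMonoidAlgebra.coeff_sub,
    AddMonoidAlgebra.coeff_add, Finsupp.add_apply, Finsupp.sub_apply, coeff_bb_yi, smul_eq_mul]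
  have e1 : ((2 : ℝ) ^ (k + 1))⁻¹ = 2⁻¹ * ((2 : ℝ) ^ k)⁻¹ := by
    rw [pow_succ, mul_inv]; ring
  rw [e1]
  unfold W
  generalize ix k z = q
  push_cast
  by_cases h6 : q = -6
  · subst h6; norm_num; ring
  by_cases h5 : q = -5
  · subst h5; norm_num; ring
  by_cases h4 : q = -4
  · subst h4; norm_num; ring
  by_cases h3 : q = -3
  · subst h3; norm_num; ring
  by_cases h2 : q = -2
  · subst h2; norm_num; ring
  by_cases h1 : q = -1
  · subst h1; norm_num; ring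
  have g0 : ¬ q + 6 = 0 := by omega
  have g1 : ¬ q + 6 = 1 := by omega
  have g2 : ¬ q + 6 = 2 := by omega
  have g3 : ¬ q + 6 = 3 := by omega
  have g4 : ¬ q + 6 = 4 := by omega
  have g5 : ¬ q + 6 = 5 := by omega
  simp only [h6, h5, h4, h3, h2, h1, g0, g1, g2, g3, g4, g5, if_false]
  ring

/-- the kernel as a function on `ℤ` -/
def KK (k : ℕ) (z : ℤ) : ℝ := (kk k).coeff z

theorem coeff_hh_mul (k : ℕ) (P : GA) (z : ℤ) :
    (hh k * P).coeff z =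
      ((2 : ℝ) ^ (k + 1))⁻¹ * ∑ v ∈ range (2 ^ (k + 1)), sgn k v * P.coeff (z - v) := by
  rw [hh_eq, smul_mul_assoc, sum_mul, AddMonoidAlgebra.coeff_smul_apply,
    AddMonoidAlgebra.coeff_sum, Finsupp.finsetSum_apply, smul_eq_mul]
  congr 1
  refine sum_congr rfl fun v _ => ?_
  rw [smul_mul_assoc, AddMonoidAlgebra.coeff_smul_apply, coeff_tt_mul, smul_eq_mul]

theorem sgn_refl (k v : ℕ) (h : v < 2 ^ (k + 1)) :
    sgn k (2 ^ (k + 1) - 1 - v) = -sgn k v := by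
  have e0 : (2 : ℕ) ^ (k + 1) = 2 ^ k + 2 ^ k := by rw [pow_succ]; ring
  unfold sgn
  by_cases h1 : v < 2 ^ k
  · rw [if_pos h1, if_neg (by omega)]
  · rw [if_neg h1, if_pos (by omega), neg_neg]

/-- reflection of a signed sum -/
theorem sum_refl (k : ℕ) (f : ℤ → ℝ) :
    ∑ v ∈ range (2 ^ (k + 1)), sgn k v * f v =
      -∑ v ∈ range (2 ^ (k + 1)), sgn k v * f (2 ^ (k + 1) - 1 - v) := by
  rw [← sum_range_reflect, ← sum_neg_distrib]
  refine sum_congr rfl fun v hv => ?_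
  rw [mem_range] at hv
  rw [sgn_refl k v hv]
  have e : (((2 ^ (k + 1) - 1 - v : ℕ)) : ℤ) = 2 ^ (k + 1) - 1 - v := by
    have h1 : v + 1 ≤ 2 ^ (k + 1) := hv
    rw [Nat.sub_sub, Nat.cast_sub (by omega)]
    push_cast
    ring
  rw [e]
  ring

/-- **Pointwise form of the refinement identity.** -/
theorem KK_sub (k : ℕ) (z : ℤ) : KK k z - KK (k + 1) z =
    (((2 : ℝ) ^ (k + 1)) ^ 4)⁻¹ * ∑ v1 ∈ range (2 ^ (k + 1)), ∑ v2 ∈ range (2 ^ (k + 1)),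
      ∑ v3 ∈ range (2 ^ (k + 1)),
        W (ix k (z + 3 + v1 + v2 + v3)) * (sgn k v1 * sgn k v2 * sgn k v3) := by
  have h0 : KK k z - KK (k + 1) z = (hh k * (hh k * (hh k * pr k))).coeff z := by
    have : hh k * (hh k * (hh k * pr k)) = kk k - kk (k + 1) := by
      rw [kk_sub]; unfold pr; ring
    rw [this, AddMonoidAlgebra.coeff_sub]
    rfl
  rw [h0, coeff_hh_mul, sum_refl k (fun v => (hh k * (hh k * pr k)).coeff (z - v))]
  simp only [coeff_hh_mul]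
  have h1 : ∀ u : ℤ, ∑ v ∈ range (2 ^ (k + 1)), sgn k v * (((2 : ℝ) ^ (k + 1))⁻¹ *
      ∑ w ∈ range (2 ^ (k + 1)), sgn k w * (pr k).coeff (u - v - w)) =
      ((2 : ℝ) ^ (k + 1))⁻¹ * (((2 : ℝ) ^ (k + 1))⁻¹ *
        ∑ v ∈ range (2 ^ (k + 1)), sgn k v * ∑ w ∈ range (2 ^ (k + 1)), sgn k w *
          -W (ix k (u - (2 ^ (k + 1) - 1 - v) - (2 ^ (k + 1) - 1 - w)) + 6)) := by
    intro u
    rw [sum_refl k (fun v => ((2 : ℝ) ^ (k + 1))⁻¹ *
      ∑ w ∈ range (2 ^ (k + 1)), sgn k w * (pr k).coeff (u - v - w))]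
    rw [← sum_neg_distrib, mul_sum, mul_sum]
    refine sum_congr rfl fun v _ => ?_
    rw [sum_refl k (fun w => (pr k).coeff (u - (2 ^ (k + 1) - 1 - v) - w))]
    simp only [coeff_pr]
    rw [mul_sum, mul_sum, mul_sum]
    simp only [mul_neg, neg_neg, mul_sum, ← sum_neg_distrib]
    refine sum_congr rfl fun w _ => ?_
    ring
  simp only [h1]
  simp only [mul_sum, ← sum_neg_distrib]
  refine sum_congr rfl fun v1 _ => sum_congr rfl fun v2 _ => sum_congr rfl fun v3 _ => ?_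
  have e : ix k (z - (2 ^ (k + 1) - 1 - (v1 : ℤ)) - (2 ^ (k + 1) - 1 - (v2 : ℤ)) -
      (2 ^ (k + 1) - 1 - (v3 : ℤ))) + 6 = ix k (z + 3 + v1 + v2 + v3) := by
    rw [← ix_add_mul]
    congr 1
    rw [pow_succ]
    ring
  rw [e]
  field_simp

/-! ### The kernel: support, mass -/

theorem coeff_bb_mul (k : ℕ) (P : GA) (z : ℤ) :
    (bb k * P).coeff z = ((2 : ℝ) ^ k)⁻¹ * ∑ v ∈ range (2 ^ k), P.coeff (z - v) := by
  unfold bb
  rw [smul_mul_assoc, sum_mul, AddMonoidAlgebra.coeff_smul_apply,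
    AddMonoidAlgebra.coeff_sum, Finsupp.finsetSum_apply, smul_eq_mul]
  congr 1
  refine sum_congr rfl fun v _ => ?_
  rw [coeff_tt_mul]

/-! ### Averages over shifts -/

/-- the residues are equidistributed -/
theorem sum_res (K N : ℕ) (h : K ≤ N) (x : ℤ) (f : ℤ → ℝ) :
    ∑ s ∈ range (2 ^ N), f ((x - s) % 2 ^ K) =
      (2 : ℝ) ^ (N - K) * ∑ v ∈ range (2 ^ K), f v := by
  have hp : (0 : ℤ) < 2 ^ K := by positivity
  induction N, h using Nat.le_induction with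
  | base =>
    rw [Nat.sub_self, pow_zero, one_mul]
    have c1 : ∀ r : ℕ, (((x - r) % 2 ^ K).toNat : ℤ) = (x - r) % 2 ^ K := fun r =>
      Int.toNat_of_nonneg (Int.emod_nonneg _ hp.ne')
    have c2 : ∀ r : ℕ, ((x - r) % 2 ^ K).toNat ∈ range (2 ^ K) := by
      intro r
      rw [mem_range]
      have h1 := Int.emod_lt_of_pos (x - r) hp
      rw [← c1 r] at h1
      exact_mod_cast h1
    have c3 : ∀ r ∈ range (2 ^ K), ((x - (((x - r) % 2 ^ K).toNat : ℕ)) % 2 ^ K).toNat = r := by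
      intro r hr
      rw [mem_range] at hr
      rw [c1 r]
      have h1 : (x - (x - r) % 2 ^ K) % 2 ^ K = (r : ℤ) % 2 ^ K := by
        rw [Int.sub_emod, Int.emod_emod_of_dvd _ dvd_rfl, ← Int.sub_emod]
        congr 1
        ring
      rw [h1, Int.emod_eq_of_lt (by positivity) (by exact_mod_cast hr)]
      simp
    refine sum_nbij' (fun r => ((x - r) % 2 ^ K).toNat) (fun r => ((x - r) % 2 ^ K).toNat)
      (fun r _ => c2 r) (fun r _ => c2 r) c3 c3 ?_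
    intro r _
    rw [c1 r]
  | succ N hN ih =>
    have e0 : (2 : ℕ) ^ (N + 1) = 2 ^ N + 2 ^ N := by rw [pow_succ]; ring
    have e1 : N + 1 - K = N - K + 1 := by omega
    rw [e0, sum_range_add, e1, pow_succ]
    have h2 : ∀ r : ℕ, (x - ((2 ^ N + r : ℕ) : ℤ)) % 2 ^ K = (x - r) % 2 ^ K := by
      intro r
      have : x - ((2 ^ N + r : ℕ) : ℤ) = (x - r) - 2 ^ K * 2 ^ (N - K) := by
        rw [← pow_add, Nat.add_sub_cancel' hN]
        push_cast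
        ring
      rw [this, Int.sub_mul_emod_self_left]
    simp only [h2]
    rw [ih]
    ring

theorem hs_res (k : ℕ) (x : ℤ) : hs (k + 1) x = sgn k (x % 2 ^ (k + 1)).toNat := by
  have hp : (0 : ℤ) < 2 ^ (k + 1) := by positivity
  have c1 : ((x % 2 ^ (k + 1)).toNat : ℤ) = x % 2 ^ (k + 1) :=
    Int.toNat_of_nonneg (Int.emod_nonneg _ hp.ne')
  have h1 := Int.mul_ediv_add_emod x (2 ^ (k + 1))
  have h2 := Int.emod_nonneg x hp.ne'
  have h3 := Int.emod_lt_of_pos x hp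
  have e0 : (2 : ℤ) ^ (k + 1) = 2 ^ k + 2 ^ k := by rw [pow_succ]; ring
  have e5 : (2 : ℤ) ^ (k + 1) * (x / 2 ^ (k + 1)) = 2 ^ k * (2 * (x / 2 ^ (k + 1))) := by
    generalize x / 2 ^ (k + 1) = q
    rw [pow_succ]
    ring
  unfold hs sgn
  rw [Nat.add_sub_cancel]
  by_cases h : (x % 2 ^ (k + 1)).toNat < 2 ^ k
  · rw [if_pos h, if_pos]
    have h4 : x % 2 ^ (k + 1) < 2 ^ k := by rw [← c1]; exact_mod_cast h
    have : ix k x = 2 * (x / 2 ^ (k + 1)) := by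
      rw [← mem_iv]
      unfold iv
      rw [mem_Ico]
      constructor <;> linarith
    omega
  · rw [if_neg h, if_neg]
    have h4 : 2 ^ k ≤ x % 2 ^ (k + 1) := by rw [← c1]; exact_mod_cast not_lt.mp h
    have : ix k x = 2 * (x / 2 ^ (k + 1)) + 1 := by
      rw [← mem_iv]
      unfold iv
      rw [mem_Ico]
      constructor <;> linarith
    omega

/-- the sum over residues of a signed function, as an average over shifts -/
theorem sum_sgn (k N : ℕ) (h : k + 1 ≤ N) (x : ℤ) (f : ℤ → ℝ) :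
    ∑ v ∈ range (2 ^ (k + 1)), sgn k v * f v =
      ((2 : ℝ) ^ (N - (k + 1)))⁻¹ * ∑ s ∈ range (2 ^ N),
        hs (k + 1) (x - s) * f (x - s - 2 ^ (k + 1) * ix (k + 1) (x - s)) := by
  have h1 := sum_res (k + 1) N h x (fun v => sgn k v.toNat * f v)
  have h2 : ∀ s : ℕ, sgn k ((x - s) % 2 ^ (k + 1)).toNat * f ((x - s) % 2 ^ (k + 1)) =
      hs (k + 1) (x - s) * f (x - s - 2 ^ (k + 1) * ix (k + 1) (x - s)) := by
    intro s
    rw [hs_res]
    congr 2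
    unfold ix
    rw [Int.emod_def]
  simp only [h2] at h1
  rw [h1, ← mul_assoc, inv_mul_cancel₀ (by positivity), one_mul]
  refine sum_congr rfl fun v _ => ?_
  simp

/-- **Shift form of the refinement identity.** -/
theorem KK_shift (k N : ℕ) (h : k + 1 ≤ N) (c' x1 x2 x3 : ℤ) :
    KK k (c' - x1 - x2 - x3) - KK (k + 1) (c' - x1 - x2 - x3) =
    ((8 : ℝ) ^ N)⁻¹ * ∑ s1 ∈ range (2 ^ N), ∑ s2 ∈ range (2 ^ N), ∑ s3 ∈ range (2 ^ N),
      W (ix k (c' + 3 - s1 - s2 - s3) -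
          2 * (ix (k + 1) (x1 - s1) + ix (k + 1) (x2 - s2) + ix (k + 1) (x3 - s3))) *
        (((2 : ℝ) ^ (k + 1))⁻¹ *
          (hs (k + 1) (x1 - s1) * hs (k + 1) (x2 - s2) * hs (k + 1) (x3 - s3))) := by
  rw [KK_sub]
  set z : ℤ := c' - x1 - x2 - x3 with hz
  have t1 : ∑ v1 ∈ range (2 ^ (k + 1)), ∑ v2 ∈ range (2 ^ (k + 1)), ∑ v3 ∈ range (2 ^ (k + 1)),
        W (ix k (z + 3 + v1 + v2 + v3)) * (sgn k v1 * sgn k v2 * sgn k v3) =
      ∑ v1 ∈ range (2 ^ (k + 1)), sgn k v1 * ∑ v2 ∈ range (2 ^ (k + 1)), sgn k v2 *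
        ∑ v3 ∈ range (2 ^ (k + 1)), sgn k v3 * W (ix k (z + 3 + v1 + v2 + v3)) := by
    simp only [mul_sum]
    refine sum_congr rfl fun v1 _ => sum_congr rfl fun v2 _ => sum_congr rfl fun v3 _ => ?_
    ring
  rw [t1]
  rw [sum_sgn k N h x1 (fun u => ∑ v2 ∈ range (2 ^ (k + 1)), sgn k v2 *
        ∑ v3 ∈ range (2 ^ (k + 1)), sgn k v3 * W (ix k (z + 3 + u + v2 + v3)))]
  have t2 : ∀ u : ℤ, ∑ v2 ∈ range (2 ^ (k + 1)), sgn k v2 *
        ∑ v3 ∈ range (2 ^ (k + 1)), sgn k v3 * W (ix k (z + 3 + u + v2 + v3)) =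
      ((2 : ℝ) ^ (N - (k + 1)))⁻¹ * ∑ s2 ∈ range (2 ^ N), hs (k + 1) (x2 - s2) *
        (((2 : ℝ) ^ (N - (k + 1)))⁻¹ * ∑ s3 ∈ range (2 ^ N), hs (k + 1) (x3 - s3) *
          W (ix k (z + 3 + u + (x2 - s2 - 2 ^ (k + 1) * ix (k + 1) (x2 - s2)) +
            (x3 - s3 - 2 ^ (k + 1) * ix (k + 1) (x3 - s3))))) := by
    intro u
    rw [sum_sgn k N h x2 (fun u2 =>
        ∑ v3 ∈ range (2 ^ (k + 1)), sgn k v3 * W (ix k (z + 3 + u + u2 + v3)))]
    congr 1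
    refine sum_congr rfl fun s2 _ => ?_
    rw [sum_sgn k N h x3 (fun u3 =>
        W (ix k (z + 3 + u + (x2 - s2 - 2 ^ (k + 1) * ix (k + 1) (x2 - s2)) + u3)))]
  simp only [t2]
  simp only [mul_sum]
  refine sum_congr rfl fun s1 _ => sum_congr rfl fun s2 _ => sum_congr rfl fun s3 _ => ?_
  have e : ix k (z + 3 + (x1 - s1 - 2 ^ (k + 1) * ix (k + 1) (x1 - s1)) +
        (x2 - s2 - 2 ^ (k + 1) * ix (k + 1) (x2 - s2)) +
        (x3 - s3 - 2 ^ (k + 1) * ix (k + 1) (x3 - s3))) =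
      ix k (c' + 3 - s1 - s2 - s3) -
          2 * (ix (k + 1) (x1 - s1) + ix (k + 1) (x2 - s2) + ix (k + 1) (x3 - s3)) := by
    rw [sub_eq_add_neg (ix k (c' + 3 - s1 - s2 - s3)), ← ix_add_mul]
    congr 1
    rw [hz, pow_succ]
    ring
  rw [e]
  have e8 : ((8 : ℝ) ^ N)⁻¹ = ((2 : ℝ) ^ (N - (k + 1)))⁻¹ ^ 3 * (((2 : ℝ) ^ (k + 1))⁻¹) ^ 3 := by
    have : (8 : ℝ) ^ N = ((2 : ℝ) ^ (N - (k + 1))) ^ 3 * ((2 : ℝ) ^ (k + 1)) ^ 3 := by
      rw [← mul_pow, ← pow_add, Nat.sub_add_cancel h, ← pow_mul, mul_comm N 3, pow_mul]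
      norm_num
    rw [this, mul_inv, inv_pow, inv_pow]
  have e4 : (((2 : ℝ) ^ (k + 1)) ^ 4)⁻¹ = (((2 : ℝ) ^ (k + 1))⁻¹) ^ 4 := by rw [inv_pow]
  rw [e8, e4]
  ring

theorem W_ne {q : ℤ} (h : W q ≠ 0) : 0 ≤ q ∧ q ≤ 5 := by
  unfold W at h
  by_contra h1
  apply h
  rw [if_neg (by omega), if_neg (by omega), if_neg (by omega), if_neg (by omega),
    if_neg (by omega), if_neg (by omega)]

theorem abs_W (q : ℤ) : |W q| ≤ 8 / 3 := by
  unfold W
  split_ifs <;> norm_num [abs_le]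

theorem ix_bit (k : ℕ) (y : ℤ) :
    2 * ix (k + 1) y ≤ ix k y ∧ ix k y ≤ 2 * ix (k + 1) y + 1 := by
  have := ix_ix k 1 y
  unfold ix at this ⊢
  omega

/-- **The planes.** -/
theorem W_plane {k : ℕ} {y M : ℤ} (h : W (ix k y - 2 * M) ≠ 0) :
    M = ix (k + 1) y ∨ M = ix (k + 1) y - 1 ∨ M = ix (k + 1) y - 2 := by
  have h1 := W_ne h
  have h2 := ix_bit k y
  omega

/-- the planes of the shifted forms are admissible (`H588.Pl`) -/
theorem plane_ok (y : ℤ) (j : ℤ) (hj : 0 ≤ j) (hj2 : j ≤ 2) (k : ℕ) :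
    0 ≤ (ix k y - j) - 2 * (ix (k + 1) y - j) ∧ (ix k y - j) - 2 * (ix (k + 1) y - j) ≤ 3 := by
  have h2 := ix_bit k y
  constructor <;> omega

end

end Vale.Agent.P141.H795
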